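import Vale.Agent.P166.Haar2.Statements

/-!
The promoted labelling has the same limiting fractions.
-/

noncomputable section

open Filter
open scoped BigOperators Topology

namespace Vale.Agent.P166.Haar2

variable {K N : ℕ}

lemma promote_changed_card (w : Fin N → Fin (K + 1)) :
    (Finset.univ.filter fun i => promote w i ≠ w i).card ≤ K + 1 := by
  refine (Finset.card_le_card_of_injOn w (fun i _ => Finset.mem_univ _) ?_).trans
    (by simp : (Finset.univ : Finset (Fin (K + 1))).card ≤ K + 1)
  intro i hi j hj hij
  rw [Finset.mem_coe, Finset.mem_filter] at hi hj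
  obtain ⟨-, hi⟩ := hi
  obtain ⟨-, hj⟩ := hj
  simp only [promote] at hi hj
  by_cases hfi : ∀ i' < i, w i' ≠ w i
  · by_cases hfj : ∀ j' < j, w j' ≠ w j
    · rcases lt_trichotomy i j with h | h | h
      · exact absurd hij (hfj i h)
      · exact h
      · exact absurd hij.symm (hfi j h)
    · exact absurd (if_neg hfj) hj
  · exact absurd (if_neg hfi) hi

lemma abs_frac_promote (w : Fin N → Fin (K + 1)) (k : Fin (K + 1)) :
    |frac (promote w) k - frac w k| ≤ (K + 1) / N := by
  have key : ∀ u v : Fin N → Fin (K + 1),
      ((Finset.univ.filter fun i => u i = k).card : ℝ) ≤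
        (Finset.univ.filter fun i => v i = k).card +
          (Finset.univ.filter fun i => u i ≠ v i).card := by
    intro u v
    have h : (Finset.univ.filter fun i => u i = k) ⊆
        (Finset.univ.filter fun i => v i = k) ∪ Finset.univ.filter fun i => u i ≠ v i := by
      intro i hi
      simp only [Finset.mem_filter, Finset.mem_univ, true_and, Finset.mem_union] at hi ⊢
      by_cases he : u i = v i
      · exact Or.inl (he ▸ hi)
      · exact Or.inr he
    exact_mod_cast (Finset.card_le_card h).trans (Finset.card_union_le _ _)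
  have hc : ((Finset.univ.filter fun i => promote w i ≠ w i).card : ℝ) ≤ K + 1 := by
    exact_mod_cast promote_changed_card w
  have e : (Finset.univ.filter fun i => w i ≠ promote w i) =
      Finset.univ.filter fun i => promote w i ≠ w i :=
    Finset.filter_congr fun i _ => ne_comm
  have h1 := key (promote w) w
  have h2 := key w (promote w)
  rw [e] at h2
  rw [frac, frac, ← sub_div, abs_div, Nat.abs_cast]
  exact div_le_div_of_nonneg_right (abs_le.2 ⟨by linarith, by linarith⟩) (Nat.cast_nonneg _)

lemma tendsto_frac_promote {N : ℕ → ℕ} (w : (j : ℕ) → Fin (N j) → Fin (K + 1))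
    (hN : Tendsto N atTop atTop) {c : Fin (K + 1) → ℝ}
    (h : ∀ k, Tendsto (fun j => frac (w j) k) atTop (𝓝 (c k))) (k : Fin (K + 1)) :
    Tendsto (fun j => frac (promote (w j)) k) atTop (𝓝 (c k)) := by
  have h0 : Tendsto (fun j => ((K : ℝ) + 1) / (N j : ℝ)) atTop (𝓝 0) :=
    tendsto_const_nhds.div_atTop (tendsto_natCast_atTop_atTop.comp hN)
  have h1 : Tendsto (fun j => frac (promote (w j)) k - frac (w j) k) atTop (𝓝 0) :=
    squeeze_zero_norm (fun j => by simpa [Real.norm_eq_abs] using abs_frac_promote (w j) k) h0
  simpa using h1.add (h k)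

end Vale.Agent.P166.Haar2
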