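import Vale.Agent.P166.Haar2.Lower.Box
import Vale.Agent.P166.Haar2.Lower.Promote

/-!
Nearly maximal parameters give asymptotic cascades for the promoted systems.
-/

noncomputable section

open MeasureTheory Filter
open scoped BigOperators Topology

namespace Vale.Agent.P166.Haar2

open Vale.Agent.P157.Parisi (Cube scale Path)

lemma devRate_nonneg (N : ℕ) : 0 ≤ devRate N :=
  add_nonneg (add_nonneg (Real.sqrt_nonneg _) (Real.rpow_nonneg (Nat.cast_nonneg N) _)) zero_le_one

/-- The structure at nearly maximal parameters, from the structure theorem. -/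
theorem base (hPr : PromoteStmt) (hD : DevStmt) (hP : PertShapeStmt) (hS : StructStmt) :
    BaseStmt := by
  intro K A N w x y hN hc hbox hmax
  obtain ⟨kmin, -, hkmin⟩ := Finset.exists_min_image Finset.univ A.c Finset.univ_nonempty
  set c₀ := A.c kmin / 2 with hc₀def
  have hc₀ : 0 < c₀ := by rw [hc₀def]; linarith [A.pos kmin]
  set C₀ := (∑ k, |A.a k|) + 4 with hC₀def
  have hC₀ : 4 ≤ C₀ := by
    rw [hC₀def]; linarith [Finset.sum_nonneg fun k (_ : k ∈ Finset.univ) => abs_nonneg (A.a k)]
  have haC : ∀ k, |A.a k| + 4 ≤ C₀ := fun k => by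
    rw [hC₀def]
    linarith [Finset.single_le_sum (fun l _ => abs_nonneg (A.a l)) (Finset.mem_univ k)]
  obtain ⟨CP, N₀, hCP⟩ := hPr K C₀ c₀ hc₀
  obtain ⟨CD, hCD⟩ := hD (K + 2) C₀
  -- the sizes from which on every condition holds
  have hev : ∀ᶠ j in atTop, 0 < N j ∧ N₀ ≤ N j ∧ (∀ k, c₀ ≤ frac (w j) k) ∧
      ∀ k, k ≠ Fin.last K → 3 * eta (N j) ≤ A.top - A.a k := by
    refine (hN.eventually_gt_atTop 0).and ((hN.eventually_ge_atTop N₀).and
      (Eventually.and (eventually_all.2 fun k => ?_) (eventually_all.2 fun k => ?_)))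
    · have : c₀ < A.c k := by
        have := hkmin k (Finset.mem_univ k); rw [hc₀def]; linarith [A.pos kmin]
      exact ((hc k).eventually (lt_mem_nhds this)).mono fun j h => h.le
    · by_cases hk : k = Fin.last K
      · exact Eventually.of_forall fun j h => absurd hk h
      · have hg : 0 < A.top - A.a k := sub_pos.2 (A.mono (Fin.lt_last_iff_ne_last.2 hk))
        have h3 : Tendsto (fun j => 3 * eta (N j)) atTop (𝓝 0) := by
          simpa using (tendsto_eta.comp hN).const_mul 3
        exact (h3.eventually (gt_mem_nhds hg)).mono fun j h _ => h.le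
  obtain ⟨j₀, hj₀⟩ := eventually_atTop.1 hev
  let Q : SysSeq K :=
    { N := fun j => N (j + j₀)
      a := fun j => shifted A.a (N (j + j₀)) (y (j + j₀))
      w := fun j => promote (w (j + j₀))
      B := fun j => unifBase (N (j + j₀))
      x := fun j => x (j + j₀) }
  have hNQ : Tendsto Q.N atTop atTop := hN.comp (tendsto_add_atTop_nat j₀)
  have hpos : ∀ j, 0 < N (j + j₀) := fun j => (hj₀ _ (Nat.le_add_left j₀ j)).1
  have hint : ∀ j, (∀ i, x (j + j₀) i ∈ Set.Icc (1 : ℝ) 2) ∧
      ∀ k, y (j + j₀) k ∈ Set.Icc (1 : ℝ) 2 := fun j =>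
    near_max_interior hP (hpos j) A.a (w (j + j₀)) _ _ (hbox _).1 (hbox _).2 (hmax _)
  have habs : ∀ j (y' : Fin (K + 1) → ℝ), (∀ k, |y' k| ≤ 4) →
      ∀ k, |shifted A.a (N (j + j₀)) y' k| ≤ C₀ := by
    intro j y' hy' k
    refine (abs_add_le _ _).trans ?_
    rw [abs_mul, abs_of_nonneg (eta_nonneg _)]
    have := mul_le_mul (eta_le_one (hpos j)) (hy' k) (abs_nonneg _) zero_le_one
    linarith [haC k]
  have hord : ∀ j (y' : Fin (K + 1) → ℝ), (∀ k, y' k ∈ Set.Icc (0 : ℝ) 3) →
      ∀ k, shifted A.a (N (j + j₀)) y' k ≤ shifted A.a (N (j + j₀)) y' (Fin.last K) := by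
    intro j y' hy' k
    by_cases hk : k = Fin.last K
    · rw [hk]
    · have h := (hj₀ _ (Nat.le_add_left j₀ j)).2.2.2 k hk
      have h1 := mul_le_mul_of_nonneg_left (hy' k).2 (eta_nonneg (N (j + j₀)))
      have h2 := mul_nonneg (eta_nonneg (N (j + j₀))) (hy' (Fin.last K)).1
      simp only [shifted, Atoms.top] at h ⊢
      linarith
  -- the promoted free energy against the original one
  have hclose : ∀ j (x' : Fin (N (j + j₀)) → ℝ) (y' : Fin (K + 1) → ℝ),
      (∀ i, x' i ∈ Set.Icc (0 : ℝ) 3) → (∀ k, y' k ∈ Set.Icc (0 : ℝ) 3) →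
      |Q.freeAt j (shifted A.a (N (j + j₀)) y') x' -
        (objLower A.a (w (j + j₀)) x' y' + pen (N (j + j₀)) x' y')| ≤ CP := by
    intro j x' y' hx' hy'
    have h := hCP (N (j + j₀)) (hj₀ _ (Nat.le_add_left j₀ j)).2.1
      (shifted A.a (N (j + j₀)) y') (w (j + j₀)) x'
      (fun k => ⟨habs j y' (fun l => abs_le.2 ⟨by linarith [(hy' l).1], by linarith [(hy' l).2]⟩) k,
        hord j y' hy' k, (hj₀ _ (Nat.le_add_left j₀ j)).2.2.1 k⟩)
      (fun i => abs_le.2 ⟨by linarith [(hx' i).1], (hx' i).2⟩)
    simpa [SysSeq.freeAt, objLower, Q] using h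
  have hstd : Q.Std A := by
    refine ⟨hNQ, hpos, fun k => ?_, ?_, fun j i => ?_⟩
    · have h1 : Tendsto (fun j => eta (N (j + j₀)) * y (j + j₀) k) atTop (𝓝 0) := by
        refine squeeze_zero_norm (fun j => ?_)
          (by simpa using (tendsto_eta.comp hNQ).mul_const 3 : Tendsto
            (fun j => eta (N (j + j₀)) * 3) atTop (𝓝 0))
        rw [Real.norm_eq_abs, abs_mul, abs_of_nonneg (eta_nonneg _),
          abs_of_nonneg ((hbox _).2 k).1]
        exact mul_le_mul_of_nonneg_left ((hbox _).2 k).2 (eta_nonneg _)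
      simpa [Q, shifted] using h1.const_add (A.a k)
    · exact tendsto_frac_promote (fun j => w (j + j₀)) hNQ
        fun k => (hc k).comp (tendsto_add_atTop_nat j₀)
    · exact abs_le.2 ⟨by linarith [((hbox (j + j₀)).1 i).1], ((hbox (j + j₀)).1 i).2⟩
  set C := max (200 + 4 * max CP 0 + 2) CD with hCdef
  have hC1 : 200 + 4 * max CP 0 + 2 ≤ C := le_max_left _ _
  have hcap : Q.Capped C := by
    refine ⟨fun j i => (hint j).1 i, fun j i => ?_, fun j k => ?_, fun j i d hd => ?_,
      fun j k d hd => ?_⟩
    · -- the perturbation strengths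
      set n := N (j + j₀)
      set X := x (j + j₀)
      set Y := y (j + j₀)
      set h := diffStep n
      have h0 : 0 ≤ h := diffStep_nonneg n
      have h1 : h ≤ 1 := diffStep_le_one (hpos j)
      have hX := (hint j).1 i
      have hb : ∀ v ∈ ({X i + h, X i - h, X i} : Set ℝ), ∀ l,
          Function.update X i v l ∈ Set.Icc (0 : ℝ) 3 := by
        intro v hv l
        by_cases hl : l = i
        · subst hl
          simp only [Function.update_self]
          simp only [Set.mem_insert_iff, Set.mem_singleton_iff] at hv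
          rcases hv with rfl | rfl | rfl <;> constructor <;> linarith [hX.1, hX.2]
        · simpa [Function.update_of_ne hl] using (hbox (j + j₀)).1 l
      have hp := hb _ (Or.inl rfl)
      have hm := hb _ (Or.inr (Or.inl rfl))
      have e1 := hclose j _ Y hp (hbox _).2
      have e2 := hclose j _ Y hm (hbox _).2
      have e3 := hclose j X Y (hbox _).1 (hbox _).2
      have m1 := hmax (j + j₀) _ Y hp (hbox _).2
      have m2 := hmax (j + j₀) _ Y hm (hbox _).2
      rw [pen_update_x] at e1 e2
      have ht := tol_le_one K n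
      have hcs : scale n ^ 2 * coef (K + 2) i.val ^ 2 * h ^ 2 ≤ scale n ^ 2 * h ^ 2 :=
        mul_le_mul_of_nonneg_right (mul_le_of_le_one_right (sq_nonneg _) (coef_sq_le_one _ _))
          (sq_nonneg h)
      have hbound : (200 + 4 * max CP 0 + 2) * (1 + scale n ^ 2 * h ^ 2) ≤
          C * (1 + scale n ^ 2 * h ^ 2) :=
        mul_le_mul_of_nonneg_right hC1 (by positivity)
      have hnn : 0 ≤ (4 * max CP 0 + 2) * (scale n ^ 2 * h ^ 2) :=
        mul_nonneg (by linarith [le_max_right CP 0]) (by positivity)
      have hcp := le_max_left CP 0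
      rw [abs_le] at e1 e2 e3
      change Q.freeAt j (shifted A.a n Y) (Function.update X i (X i + h)) +
          Q.freeAt j (shifted A.a n Y) (Function.update X i (X i - h)) -
          2 * Q.freeAt j (shifted A.a n Y) X ≤ C * (1 + scale n ^ 2 * h ^ 2)
      linarith [e1.2, e2.2, e3.1]
    · -- the shifts of the atoms
      set n := N (j + j₀)
      set X := x (j + j₀)
      set Y := y (j + j₀)
      set h := diffStep n
      have h0 : 0 ≤ h := diffStep_nonneg n
      have h1 : h ≤ 1 := diffStep_le_one (hpos j)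
      have hY := (hint j).2 k
      have hb : ∀ v ∈ ({Y k + h, Y k + -h} : Set ℝ), ∀ l,
          Function.update Y k v l ∈ Set.Icc (0 : ℝ) 3 := by
        intro v hv l
        by_cases hl : l = k
        · subst hl
          simp only [Function.update_self]
          simp only [Set.mem_insert_iff, Set.mem_singleton_iff] at hv
          rcases hv with rfl | rfl <;> constructor <;> linarith [hY.1, hY.2]
        · simpa [Function.update_of_ne hl] using (hbox (j + j₀)).2 l
      have hp := hb _ (Or.inl rfl)
      have hm := hb _ (Or.inr rfl)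
      have e1 := hclose j X _ (hbox _).1 hp
      have e2 := hclose j X _ (hbox _).1 hm
      have e3 := hclose j X Y (hbox _).1 (hbox _).2
      have m1 := hmax (j + j₀) X _ (hbox _).1 hp
      have m2 := hmax (j + j₀) X _ (hbox _).1 hm
      rw [pen_update_y, shifted_update] at e1 e2
      rw [mul_neg, ← sub_eq_add_neg] at e2
      have ht := tol_le_one K n
      have hnη : 0 ≤ eta n * n * h ^ 2 :=
        mul_nonneg (mul_nonneg (eta_nonneg n) (Nat.cast_nonneg n)) (sq_nonneg h)
      have hbound : (200 + 4 * max CP 0 + 2) * (1 + eta n * n * h ^ 2) ≤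
          C * (1 + eta n * n * h ^ 2) :=
        mul_le_mul_of_nonneg_right hC1 (by linarith)
      have hnn : 0 ≤ (4 * max CP 0 + 2) * (eta n * n * h ^ 2) :=
        mul_nonneg (by linarith [le_max_right CP 0]) hnη
      have hcp := le_max_left CP 0
      rw [abs_le] at e1 e2 e3
      change Q.freeAt j (Function.update (shifted A.a n Y) k (shifted A.a n Y k + eta n * h)) X +
          Q.freeAt j (Function.update (shifted A.a n Y) k (shifted A.a n Y k - eta n * h)) X -
          2 * Q.freeAt j (shifted A.a n Y) X ≤ C * (1 + eta n * n * h ^ 2)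
      linarith [e1.2, e2.2, e3.1]
    · have h1 : diffStep (N (j + j₀)) ≤ 1 := diffStep_le_one (hpos j)
      have h0 := diffStep_nonneg (N (j + j₀))
      refine (hCD (N (j + j₀)) _ (stdSys (Q.a j) (Q.w j)) (hpos j)
        (fun l => habs j _ (fun m => abs_le.2 ⟨by linarith [((hbox (j + j₀)).2 m).1],
          by linarith [((hbox (j + j₀)).2 m).2]⟩) _) le_rfl _ fun l => ?_).trans
        (mul_le_mul_of_nonneg_right (le_max_right _ _) ?_)
      · have hd' : |d| ≤ 1 := by
          simp only [Set.mem_insert_iff, Set.mem_singleton_iff] at hd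
          rcases hd with rfl | rfl | rfl <;>
            simp only [abs_zero, abs_neg, zero_le_one, abs_of_nonneg h0, Q, h1]
        by_cases hl : l = i
        · subst hl
          simp only [Function.update_self]
          have h2 : x (j + j₀) l ∈ Set.Icc (1 : ℝ) 2 := (hint j).1 l
          have h3 := abs_le.1 hd'
          change |x (j + j₀) l + d| ≤ C₀
          exact (abs_le.2 ⟨by linarith [h2.1], by linarith [h2.2]⟩ : _ ≤ (4 : ℝ)).trans hC₀
        · simp only [Function.update_of_ne hl]
          exact ((hstd.box j l).trans (by norm_num)).trans hC₀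
      · exact devRate_nonneg _
    · have h1 : diffStep (N (j + j₀)) ≤ 1 := diffStep_le_one (hpos j)
      have h0 := diffStep_nonneg (N (j + j₀))
      have hd' : |d| ≤ 1 := by
        simp only [Set.mem_insert_iff, Set.mem_singleton_iff] at hd
        rcases hd with rfl | rfl | rfl <;>
          simp only [abs_zero, abs_neg, zero_le_one, abs_of_nonneg h0, Q, h1]
      have e : Function.update (Q.a j) k (Q.a j k + eta (Q.N j) * d) =
          shifted A.a (N (j + j₀))
            (Function.update (y (j + j₀)) k (y (j + j₀) k + d)) :=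
        (shifted_update A.a (y (j + j₀)) k d).symm
      rw [e]
      set Y' := Function.update (y (j + j₀)) k (y (j + j₀) k + d) with hY'
      have hY4 : ∀ m, |Y' m| ≤ 4 := by
        intro m
        have := abs_le.1 hd'
        rw [hY']
        by_cases hm : m = k
        · subst hm
          simp only [Function.update_self]
          have h3 := (hint j).2 m
          exact abs_le.2 ⟨by linarith [h3.1], by linarith [h3.2]⟩
        · simp only [Function.update_of_ne hm]
          have h3 := (hbox (j + j₀)).2 m
          exact abs_le.2 ⟨by linarith [h3.1], by linarith [h3.2]⟩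
      refine (hCD (N (j + j₀)) _ (stdSys (shifted A.a (N (j + j₀)) Y') (Q.w j)) (hpos j)
        (fun l => habs j Y' hY4 (Q.w j l)) le_rfl _ fun l => ?_).trans
        (mul_le_mul_of_nonneg_right (le_max_right _ _) ?_)
      · exact ((hstd.box j l).trans (by norm_num)).trans hC₀
      · exact devRate_nonneg _
  obtain ⟨φ, ξ, hφ, hap⟩ := hS K A Q C hstd hcap
  exact ⟨fun j => φ j + j₀, ξ, fun a b h => by simpa using hφ h, hap⟩

end Vale.Agent.P166.Haar2
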