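import Vale.Agent.P166.Haar2.Atoms.Facts

/-!
Two labellings with nearly the same fractions have nearly the same mean pressure.
-/

noncomputable section

open Filter Set
open scoped BigOperators Topology

namespace Vale.Agent.P166.Haar2

lemma sum_comp_eq_frac {K n : ℕ} (hn : 0 < n) (w : Fin n → Fin (K + 1)) (f : Fin (K + 1) → ℝ) :
    ∑ i, f (w i) = n * ∑ k, frac w k * f k := by
  have hn' : (n : ℝ) ≠ 0 := by exact_mod_cast hn.ne'
  rw [Finset.mul_sum, ← Finset.sum_fiberwise Finset.univ w fun i => f (w i)]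
  refine Finset.sum_congr rfl fun k _ => ?_
  rw [Finset.sum_congr rfl fun i hi => by rw [(Finset.mem_filter.1 hi).2], Finset.sum_const,
    nsmul_eq_mul, frac]
  field_simp

/-- The mean pressure of atoms depends uniformly continuously on the fractions. -/
lemma meanP_frac_close {K : ℕ} (A : Atoms K) {ε : ℝ} (hε : 0 < ε) :
    ∃ η > 0, ∀ n : ℕ, 0 < n → ∀ w w' : Fin n → Fin (K + 1), (∀ k, |frac w k - A.c k| ≤ η) →
      (∀ k, |frac w' k - A.c k| ≤ η) →
      |meanP 1 (fun i => A.a (w i)) - meanP 1 (fun i => A.a (w' i))| ≤ ε := by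
  have hc := A.ctop_pos
  set δ := ε / 3
  have hδ : 0 < δ := by positivity
  have hLb : A.a 0 ≤ A.top := A.mono.monotone (Fin.zero_le _)
  set D := A.top + δ - A.a 0 with hDdef
  have hD : 0 < D := by linarith
  set M := ⌈D / (δ / 2)⌉₊ + 1 with hM
  set η := min (A.ctop / 2) (ε * A.ctop / (8 * D * M * (K + 1))) with hη_def
  have hη : 0 < η := lt_min (by linarith) (by positivity)
  refine ⟨η, hη, fun n hn w w' hw hw' => ?_⟩
  have hn' : (0 : ℝ) < n := by exact_mod_cast hn
  have hsum : ∀ (σ : Equiv.Perm (Fin n)) (v : Fin n → Fin (K + 1)) (f : ℝ → ℝ),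
      ∑ i, f (((fun j => A.a (v j)) ∘ σ) i) = n * ∑ k, frac v k * f (A.a k) := fun σ v f =>
    (Equiv.sum_comp σ fun j => f (A.a (v j))).trans (sum_comp_eq_frac hn v fun k => f (A.a k))
  have hdiff : ∀ c s : ℝ,
      |(n * ∑ k, frac w' k * ramp c s (A.a k)) - n * ∑ k, frac w k * ramp c s (A.a k)| ≤
        n * (2 * (K + 1) * η) := fun c s => by
    rw [← mul_sub, abs_mul, abs_of_pos hn', ← Finset.sum_sub_distrib]
    refine mul_le_mul_of_nonneg_left ((Finset.abs_sum_le_sum_abs _ _).trans ?_) hn'.le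
    calc ∑ k, |frac w' k * ramp c s (A.a k) - frac w k * ramp c s (A.a k)|
        ≤ ∑ _k : Fin (K + 1), 2 * η := Finset.sum_le_sum fun k _ => by
          rw [← sub_mul, abs_mul, abs_of_nonneg (ramp_nonneg _ _ _)]
          refine (mul_le_of_le_one_right (abs_nonneg _) (ramp_le_one _ _ _)).trans ?_
          refine (abs_sub_le _ (A.c k) _).trans ?_
          linarith [hw' k, hw k, abs_sub_comm (A.c k) (frac w k)]
      _ = 2 * (K + 1) * η := by simp; ring
  set l := (fun i => A.a (w i)) ∘ Tuple.sort (fun i => A.a (w i)) with hl_def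
  set l' := (fun i => A.a (w' i)) ∘ Tuple.sort (fun i => A.a (w' i)) with hl'_def
  have hbox : ∀ k, A.a 0 ≤ A.a k ∧ A.a k ≤ A.top + δ := fun k =>
    ⟨A.mono.monotone (Fin.zero_le k), (A.mono.monotone (Fin.le_last k)).trans (by
      change A.top ≤ A.top + δ; linarith)⟩
  have hP : (n : ℝ) * (A.ctop / 2) ≤ ∑ i, ramp (A.top - δ) δ (l i) := by
    rw [hl_def, hsum]
    refine mul_le_mul_of_nonneg_left ?_ hn'.le
    have h1 : frac w (Fin.last K) * ramp (A.top - δ) δ (A.a (Fin.last K)) ≤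
        ∑ k, frac w k * ramp (A.top - δ) δ (A.a k) :=
      Finset.single_le_sum (f := fun k => frac w k * ramp (A.top - δ) δ (A.a k))
        (fun k _ => mul_nonneg (div_nonneg (Nat.cast_nonneg _) hn'.le) (ramp_nonneg _ _ _))
        (Finset.mem_univ _)
    rw [ramp_high hδ (by change A.top - δ + δ ≤ A.top; linarith), mul_one] at h1
    have h2 : η ≤ A.ctop / 2 := min_le_left _ _
    have := (abs_le.1 (hw (Fin.last K))).1
    simp only [Atoms.ctop] at h2 ⊢
    linarith
  have hP0 : 0 < ∑ i, ramp (A.top - δ) δ (l i) := lt_of_lt_of_le (by positivity) hP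
  have h := compare_sorted (β := 1) zero_le_one hn (l := l) (l' := l')
    (Tuple.monotone_sort _) (Tuple.monotone_sort _) hδ hLb (fun i => hbox _) (fun i => hbox _) hP0
  have e : meanP 1 l = meanP 1 (fun i => A.a (w i)) := meanP_perm _ _ _
  have e' : meanP 1 l' = meanP 1 (fun i => A.a (w' i)) := meanP_perm _ _ _
  rw [e, e', ← hDdef, ← hM] at h
  set S := ∑ j ∈ Finset.range M, |∑ i, ramp (A.a 0 + j * (δ / 2)) (δ / 2) (l' i) -
    ∑ i, ramp (A.a 0 + j * (δ / 2)) (δ / 2) (l i)| with hS_def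
  have hS : S ≤ M * (n * (2 * (K + 1) * η)) := by
    rw [hS_def]
    refine (Finset.sum_le_card_nsmul _ _ (n * (2 * (K + 1) * η)) fun j _ => ?_).trans_eq (by simp)
    rw [hl_def, hl'_def, hsum, hsum]
    exact hdiff _ _
  have hq : 2 * S / (∑ i, ramp (A.top - δ) δ (l i)) ≤ ε / D := by
    rw [div_le_iff₀ hP0]
    refine le_trans ?_ (mul_le_mul_of_nonneg_left hP (by positivity))
    have h2 : η ≤ ε * A.ctop / (8 * D * M * (K + 1)) := min_le_right _ _
    rw [le_div_iff₀ (by positivity)] at h2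
    rw [div_mul_eq_mul_div, le_div_iff₀ hD]
    nlinarith [mul_le_mul_of_nonneg_left h2 hn'.le, mul_le_mul_of_nonneg_left hS hD.le]
  have h3 := mul_le_mul_of_nonneg_left hq hD.le
  rw [mul_div_cancel₀ _ hD.ne'] at h3
  have h4 : 3 * δ = ε := by simp only [δ]; ring
  linarith

end Vale.Agent.P166.Haar2
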