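import Vale.Agent.P166.Haar2.Sys

/-!
Independent labels: the weights of labellings and the concentration of their fractions.
-/

noncomputable section

open Filter
open scoped BigOperators Topology

namespace Vale.Agent.P166.Haar2

variable {K n : ℕ}

/-- The weight of a labelling with independent labels of law `c`. -/
def wt (c : Fin (K + 1) → ℝ) (w : Fin n → Fin (K + 1)) : ℝ := ∏ i, c (w i)

lemma wt_nonneg {c : Fin (K + 1) → ℝ} (hc : ∀ k, 0 ≤ c k) (w : Fin n → Fin (K + 1)) :
    0 ≤ wt c w := Finset.prod_nonneg fun i _ => hc (w i)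

lemma sum_wt_prod (c g : Fin (K + 1) → ℝ) :
    ∑ w : Fin n → Fin (K + 1), wt c w * ∏ i, g (w i) = (∑ k, c k * g k) ^ n := by
  simp only [wt, ← Finset.prod_mul_distrib]
  rw [← Fintype.prod_sum (fun (_ : Fin n) k => c k * g k), Finset.prod_const, Finset.card_univ,
    Fintype.card_fin]

lemma sum_wt {c : Fin (K + 1) → ℝ} (hc : ∑ k, c k = 1) :
    ∑ w : Fin n → Fin (K + 1), wt c w = 1 := by
  simpa [hc] using sum_wt_prod (n := n) c fun _ => 1

lemma sum_wt_succ (c : Fin (K + 1) → ℝ) (F : (Fin (n + 1) → Fin (K + 1)) → ℝ) :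
    ∑ w, wt c w * F w = ∑ w : Fin n → Fin (K + 1), wt c w * ∑ k, c k * F (Fin.snoc w k) := by
  rw [← (Fin.snocEquiv fun _ => Fin (K + 1)).sum_comp, Fintype.sum_prod_type, Finset.sum_comm]
  refine Finset.sum_congr rfl fun w _ => ?_
  rw [Finset.mul_sum]
  refine Finset.sum_congr rfl fun k _ => ?_
  have e : (Fin.snocEquiv fun _ => Fin (K + 1)) (k, w) = (Fin.snoc w k : Fin (n + 1) → Fin (K + 1)) :=
    funext fun i => Fin.snocEquiv_apply _ _ _
  simp only [e, wt, Fin.prod_univ_castSucc, Fin.snoc_castSucc, Fin.snoc_last]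
  ring

/-- The labellings whose fractions are near `c`. -/
def goodSet (c : Fin (K + 1) → ℝ) (η : ℝ) (n : ℕ) : Finset (Fin n → Fin (K + 1)) :=
  Finset.univ.filter fun w => ∀ k, |frac w k - c k| ≤ η

lemma mem_goodSet {c : Fin (K + 1) → ℝ} {η : ℝ} {w : Fin n → Fin (K + 1)} :
    w ∈ goodSet c η n ↔ ∀ k, |frac w k - c k| ≤ η := by simp [goodSet]

/-- The weight of the labellings which are not good. -/
def badWt (c : Fin (K + 1) → ℝ) (η : ℝ) (n : ℕ) : ℝ := ∑ w ∈ (goodSet c η n)ᶜ, wt c w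

lemma badWt_nonneg {c : Fin (K + 1) → ℝ} (hc : ∀ k, 0 ≤ c k) (η : ℝ) (n : ℕ) :
    0 ≤ badWt c η n := Finset.sum_nonneg fun w _ => wt_nonneg hc w

lemma good_add_bad {c : Fin (K + 1) → ℝ} (hc : ∑ k, c k = 1) (η : ℝ) (n : ℕ) :
    (∑ w ∈ goodSet c η n, wt c w) + badWt c η n = 1 := by
  rw [badWt, Finset.sum_add_sum_compl, sum_wt hc]

lemma exp_le_quadratic {u : ℝ} (hu : |u| ≤ 1) : Real.exp u ≤ 1 + u + u ^ 2 := by
  linarith [(abs_le.1 (Real.abs_exp_sub_one_sub_id_le hu)).2]

lemma sum_indicator_eq (w : Fin n → Fin (K + 1)) (k : Fin (K + 1)) :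
    (∑ i, if w i = k then (1 : ℝ) else 0) = n * frac w k := by
  rw [Finset.sum_boole, frac]
  rcases Nat.eq_zero_or_pos n with rfl | hn
  · simp
  · field_simp

lemma chernoff {c : Fin (K + 1) → ℝ} (hc0 : ∀ k, 0 ≤ c k) (hc : ∑ k, c k = 1) {η : ℝ}
    (hη : 0 < η) (hη1 : η ≤ 1) (k : Fin (K + 1)) {σ : ℝ} (hσ : σ = 1 ∨ σ = -1) :
    ∑ w ∈ Finset.univ.filter (fun w : Fin n → Fin (K + 1) => η < σ * (frac w k - c k)), wt c w ≤
      Real.exp (-(η ^ 2 / 4) * n) := by
  set t := η / 2 with ht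
  set g : Fin (K + 1) → ℝ :=
    fun l => Real.exp (t * (σ * ((if l = k then 1 else 0) - c k)))
  have hck : c k ≤ 1 := by
    rw [← hc]; exact Finset.single_le_sum (fun l _ => hc0 l) (Finset.mem_univ k)
  have hprod : ∀ w : Fin n → Fin (K + 1),
      ∏ i, g (w i) = Real.exp (t * n * (σ * (frac w k - c k))) := by
    intro w
    simp only [g, ← Real.exp_sum]
    congr 1
    rw [← Finset.mul_sum, ← Finset.mul_sum, Finset.sum_sub_distrib, sum_indicator_eq,
      Finset.sum_const, Finset.card_univ, Fintype.card_fin, nsmul_eq_mul]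
    ring
  have hmean : ∑ l, c l * g l ≤ Real.exp (t ^ 2) := by
    refine (Finset.sum_le_sum (g := fun l => c l * (1 + t * (σ * ((if l = k then 1 else 0) - c k))
        + t ^ 2)) fun l _ => mul_le_mul_of_nonneg_left ?_ (hc0 l)).trans ?_
    · have hd : |(if l = k then (1 : ℝ) else 0) - c k| ≤ 1 := by
        split_ifs <;> rw [abs_le] <;> constructor <;> linarith [hc0 k]
      have hd' : |σ * ((if l = k then (1 : ℝ) else 0) - c k)| ≤ 1 := by
        rcases hσ with rfl | rfl
        · rwa [one_mul]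
        · rwa [neg_one_mul, abs_neg]
      set d := σ * ((if l = k then (1 : ℝ) else 0) - c k)
      have htu : |t * d| ≤ 1 := by
        rw [abs_mul, abs_of_pos (by positivity : 0 < t)]
        exact (mul_le_mul (by linarith : t ≤ 1) hd' (abs_nonneg d) zero_le_one).trans (one_mul _).le
      refine (exp_le_quadratic htu).trans ?_
      have : (t * d) ^ 2 ≤ t ^ 2 := by
        rw [mul_pow]
        exact mul_le_of_le_one_right (sq_nonneg t) (by rw [← sq_abs]; exact pow_le_one₀ (abs_nonneg d) hd')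
      linarith
    · refine le_trans (le_of_eq ?_) (by linarith [Real.add_one_le_exp (t ^ 2)] :
        1 + t ^ 2 ≤ Real.exp (t ^ 2))
      simp only [mul_add, mul_one, Finset.sum_add_distrib, mul_sub, mul_ite, mul_zero,
        Finset.sum_sub_distrib, Finset.sum_ite_eq', Finset.mem_univ, if_true, ← Finset.sum_mul, hc]
      ring
  have h1 : ∀ w ∈ Finset.univ.filter
      (fun w : Fin n → Fin (K + 1) => η < σ * (frac w k - c k)),
      wt c w ≤ Real.exp (-(t * n * η)) * (wt c w * ∏ i, g (w i)) := by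
    intro w hw
    rw [hprod, ← mul_assoc, mul_comm (Real.exp _) (wt c w), mul_assoc, ← Real.exp_add]
    refine le_mul_of_one_le_right (wt_nonneg hc0 w) (Real.one_le_exp ?_)
    have hw' : η < σ * (frac w k - c k) := (Finset.mem_filter.1 hw).2
    nlinarith [mul_le_mul_of_nonneg_left hw'.le (by positivity : (0 : ℝ) ≤ t * n)]
  refine (Finset.sum_le_sum h1).trans ?_
  rw [← Finset.mul_sum]
  refine (mul_le_mul_of_nonneg_left (Finset.sum_le_sum_of_subset_of_nonneg (Finset.subset_univ _)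
    fun w _ _ => mul_nonneg (wt_nonneg hc0 w) (Finset.prod_nonneg fun i _ => (Real.exp_pos _).le))
    (Real.exp_pos _).le).trans ?_
  rw [sum_wt_prod c g]
  refine (mul_le_mul_of_nonneg_left (pow_le_pow_left₀ (Finset.sum_nonneg fun l _ =>
    mul_nonneg (hc0 l) (Real.exp_pos _).le) hmean n) (Real.exp_pos _).le).trans (le_of_eq ?_)
  rw [← Real.exp_nat_mul, ← Real.exp_add, ht]
  congr 1
  ring

lemma badWt_le {c : Fin (K + 1) → ℝ} (hc0 : ∀ k, 0 ≤ c k) (hc : ∑ k, c k = 1) {η : ℝ}
    (hη : 0 < η) (hη1 : η ≤ 1) (n : ℕ) :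
    badWt c η n ≤ 2 * (K + 1) * Real.exp (-(η ^ 2 / 4) * n) := by
  have h1 : badWt c η n ≤ ∑ k : Fin (K + 1), ∑ s ∈ ({1, -1} : Finset ℝ),
      ∑ w ∈ Finset.univ.filter (fun w : Fin n → Fin (K + 1) => η < s * (frac w k - c k)),
        wt c w := by
    simp only [badWt, Finset.sum_filter]
    calc ∑ w ∈ (goodSet c η n)ᶜ, wt c w
        ≤ ∑ w ∈ (goodSet c η n)ᶜ, ∑ k : Fin (K + 1), ∑ s ∈ ({1, -1} : Finset ℝ),
            if η < s * (frac w k - c k) then wt c w else 0 := by
          refine Finset.sum_le_sum fun w hw => ?_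
          simp only [Finset.mem_compl, mem_goodSet, not_forall, not_le] at hw
          obtain ⟨k, hk⟩ := hw
          have hnn : ∀ l s, 0 ≤ if η < s * (frac w l - c l) then wt c w else 0 := fun l s => by
            split_ifs
            · exact wt_nonneg hc0 w
            · exact le_rfl
          refine le_trans ?_ (Finset.single_le_sum
            (f := fun l => ∑ s ∈ ({1, -1} : Finset ℝ),
              if η < s * (frac w l - c l) then wt c w else 0)
            (fun l _ => Finset.sum_nonneg fun s _ => hnn l s) (Finset.mem_univ k))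
          rcases lt_abs.1 hk with h | h
          · refine le_trans (le_of_eq ?_) (Finset.single_le_sum (fun s _ => hnn k s)
              (by simp : (1 : ℝ) ∈ ({1, -1} : Finset ℝ)))
            rw [if_pos (by rwa [one_mul])]
          · refine le_trans (le_of_eq ?_) (Finset.single_le_sum (fun s _ => hnn k s)
              (by simp : (-1 : ℝ) ∈ ({1, -1} : Finset ℝ)))
            rw [if_pos (by rwa [neg_one_mul])]
      _ ≤ ∑ w, ∑ k : Fin (K + 1), ∑ s ∈ ({1, -1} : Finset ℝ),
            if η < s * (frac w k - c k) then wt c w else 0 := by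
          refine Finset.sum_le_sum_of_subset_of_nonneg (Finset.subset_univ _) fun w _ _ =>
            Finset.sum_nonneg fun k _ => Finset.sum_nonneg fun s _ => ?_
          split_ifs
          · exact wt_nonneg hc0 w
          · exact le_rfl
      _ = _ := by
          rw [Finset.sum_comm]
          exact Finset.sum_congr rfl fun k _ => Finset.sum_comm
  refine h1.trans ((Finset.sum_le_sum (g := fun _ : Fin (K + 1) =>
    2 * Real.exp (-(η ^ 2 / 4) * n)) fun k _ => ?_).trans_eq ?_)
  · rw [Finset.sum_pair (by norm_num : (1 : ℝ) ≠ -1)]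
    linarith [chernoff (n := n) hc0 hc hη hη1 k (σ := 1) (Or.inl rfl),
      chernoff (n := n) hc0 hc hη hη1 k (σ := -1) (Or.inr rfl)]
  · rw [Finset.sum_const, Finset.card_univ, Fintype.card_fin, nsmul_eq_mul]
    push_cast
    ring

lemma tendsto_mul_badWt {c : Fin (K + 1) → ℝ} (hc0 : ∀ k, 0 ≤ c k) (hc : ∑ k, c k = 1) {η : ℝ}
    (hη : 0 < η) (hη1 : η ≤ 1) :
    Tendsto (fun n : ℕ => ((n : ℝ) + 2) * badWt c η n) atTop (𝓝 0) := by
  set b := Real.exp (-(η ^ 2 / 4)) with hb
  have hb1 : |b| < 1 := by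
    rw [abs_of_pos (Real.exp_pos _)]
    exact Real.exp_lt_one_iff.2 (neg_lt_zero.2 (by positivity))
  have h : Tendsto (fun n : ℕ => 2 * ((K : ℝ) + 1) * ((n : ℝ) * b ^ n + 2 * b ^ n)) atTop
      (𝓝 0) := by
    simpa using ((tendsto_self_mul_const_pow_of_abs_lt_one hb1).add
      ((tendsto_pow_atTop_nhds_zero_of_abs_lt_one hb1).const_mul 2)).const_mul (2 * ((K : ℝ) + 1))
  refine squeeze_zero (fun n => mul_nonneg (by positivity) (badWt_nonneg hc0 η n)) (fun n => ?_) h
  refine (mul_le_mul_of_nonneg_left (badWt_le hc0 hc hη hη1 n) (by positivity)).trans (le_of_eq ?_)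
  rw [hb, ← Real.exp_nat_mul]
  ring_nf

end Vale.Agent.P166.Haar2
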