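import Vale.Agent.P166.Haar2.Lower.Lift

/-!
The best penalised free energy of a labelling, its size, and its growth by one site.
-/

noncomputable section

open MeasureTheory Filter
open scoped BigOperators Topology

namespace Vale.Agent.P166.Haar2

open Vale.Agent.P157.Parisi (Cube scale)

variable {K n : ℕ}

lemma pen_nonneg {L : ℕ} (N : ℕ) (x : Fin L → ℝ) (y : Fin (K + 1) → ℝ) : 0 ≤ pen N x y := by
  unfold pen
  exact add_nonneg
    (mul_nonneg (by positivity) (Finset.sum_nonneg fun i _ => by positivity))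
    (mul_nonneg (mul_nonneg (by norm_num) (mul_nonneg (eta_nonneg N) N.cast_nonneg))
      (Finset.sum_nonneg fun i _ => sq_nonneg _))

lemma sum_coef_sq_le_one (G L : ℕ) : ∑ i : Fin L, coef G i.val ^ 2 ≤ 1 := by
  rw [Fin.sum_univ_eq_sum_range (fun i => coef G i ^ 2) L]
  refine (Finset.sum_le_sum (g := fun i => 1 / 2 * (1 / 2 : ℝ) ^ i) fun i _ => ?_).trans ?_
  · have h0 := coef_pos G i
    have h1 : coef G i ≤ (1 / 2) ^ (i + 1) :=
      div_le_self (by positivity) (le_add_of_nonneg_right (Nat.cast_nonneg _))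
    rw [← pow_succ']
    calc coef G i ^ 2 ≤ coef G i := pow_le_of_le_one h0.le (coef_le_one G i) two_ne_zero
      _ ≤ _ := h1
  · rw [← Finset.mul_sum, geom_sum_eq (by norm_num : (1 / 2 : ℝ) ≠ 1),
      show (1 / 2 : ℝ) - 1 = -(1 / 2) by norm_num, div_neg, div_div_eq_mul_div]
    have : 0 ≤ (1 / 2 : ℝ) ^ L := by positivity
    linarith

lemma scale_sq (N : ℕ) : scale N ^ 2 = (N : ℝ) ^ (3 / 4 : ℝ) := by
  rw [scale, ← Real.rpow_natCast ((N : ℝ) ^ (3 / 8 : ℝ)) 2, ← Real.rpow_mul N.cast_nonneg]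
  norm_num

lemma scale_sq_le (N : ℕ) : scale N ^ 2 ≤ N + 1 := by
  rw [scale_sq]
  rcases Nat.eq_zero_or_pos N with rfl | hN
  · norm_num
  · have : (N : ℝ) ^ (3 / 4 : ℝ) ≤ (N : ℝ) ^ (1 : ℝ) :=
      Real.rpow_le_rpow_of_exponent_le (by exact_mod_cast hN) (by norm_num)
    rw [Real.rpow_one] at this
    linarith

lemma rpow_succ_sub_le {p : ℝ} (hp1 : p ≤ 1) (hn : 0 < n) :
    ((n : ℝ) + 1) ^ p - (n : ℝ) ^ p ≤ ((n : ℝ) + 1) ^ (p - 1) := by
  have h0 : (0 : ℝ) < n := by exact_mod_cast hn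
  have h1 : ((n : ℝ) + 1) ^ (p - 1) ≤ (n : ℝ) ^ (p - 1) :=
    Real.rpow_le_rpow_of_nonpos h0 (by linarith) (by linarith)
  have e1 : ((n : ℝ) + 1) ^ p = ((n : ℝ) + 1) * ((n : ℝ) + 1) ^ (p - 1) := by
    rw [mul_comm, ← Real.rpow_add_one (by positivity), sub_add_cancel]
  have e2 : (n : ℝ) ^ p = (n : ℝ) * (n : ℝ) ^ (p - 1) := by
    rw [mul_comm, ← Real.rpow_add_one (ne_of_gt h0), sub_add_cancel]
  rw [e1, e2]
  linarith [mul_le_mul_of_nonneg_left h1 h0.le]

/-- The pressure of a labelling. -/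
def labP (a : Fin (K + 1) → ℝ) {n : ℕ} (w : Fin n → Fin (K + 1)) : ℝ := meanP 1 fun i => a (w i)

/-- The size of the atoms. -/
def absSum (a : Fin (K + 1) → ℝ) : ℝ := ∑ k, |a k|

lemma meanP_zero (n : ℕ) : meanP 1 (fun _ : Fin n => (0 : ℝ)) = 0 := by
  have : ∀ U, pressure 1 (fun _ : Fin n => (0 : ℝ)) U = 0 := fun U => by
    rw [pressure_eq]; simp [part, en_eq, Real.log_pow]
  simp [meanP, this]

lemma abs_labP_le (a : Fin (K + 1) → ℝ) (hn : 0 < n) (w : Fin n → Fin (K + 1)) :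
    |labP a w| ≤ absSum a / 2 := by
  have hn' : (0 : ℝ) < n := by exact_mod_cast hn
  let P : Sys n (K + 2) := stdSys a w
  let P' : Sys n (K + 2) := ⟨fun _ => 0, P.S, P.ν⟩
  have hk : ∀ i, |P.lam i| ≤ absSum a := fun i =>
    Finset.single_le_sum (fun l _ => abs_nonneg (a l)) (Finset.mem_univ (w i))
  have h1 := free_lam_le P P' rfl rfl 0 (fun _ : Fin 0 => (0 : ℝ)) (unifBase n) (c := absSum a)
    fun i => by simp only [P']; linarith [(abs_le.1 (hk i)).2]
  have h2 := free_lam_le P' P rfl rfl 0 (fun _ : Fin 0 => (0 : ℝ)) (unifBase n) (c := absSum a)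
    fun i => by simp only [P']; linarith [(abs_le.1 (hk i)).1]
  rw [free_unif_zero P hn, free_unif_zero P' hn, show meanP 1 P'.lam = 0 from meanP_zero n] at h1 h2
  have e : meanP 1 P.lam = labP a w := rfl
  rw [e] at h1 h2
  rw [abs_le]
  constructor <;> nlinarith

lemma objLower_le (hP : PertShapeStmt) (a : Fin (K + 1) → ℝ) (hn : 0 < n)
    (w : Fin n → Fin (K + 1)) {x : Fin n → ℝ} {y : Fin (K + 1) → ℝ}
    (hx : ∀ i, x i ∈ Set.Icc (0 : ℝ) 3) (hy : ∀ k, y k ∈ Set.Icc (0 : ℝ) 3) :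
    objLower a w x y ≤ n * labP a w + 3 / 2 * (eta n * n) + 9 / 2 * scale n ^ 2 := by
  have h1 := free_shift_le a y (fun _ => 0) w (scale n) x (unifBase n) (c := 3) fun k => by
    linarith [(hy k).2]
  have e0 : shifted a n (fun _ => 0) = a := funext fun k => by simp [shifted]
  rw [e0] at h1
  have h2 := ((hP (K + 2) n n (stdSys a w) hn le_rfl (scale n) (unifBase n)).1 x).2
  rw [free_unif_zero (stdSys a w) hn] at h2
  have h3 : ∑ i : Fin n, (coef (K + 2) i.val * x i) ^ 2 ≤ 9 := by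
    calc ∑ i : Fin n, (coef (K + 2) i.val * x i) ^ 2
        ≤ ∑ i : Fin n, 9 * coef (K + 2) i.val ^ 2 := Finset.sum_le_sum fun i _ => by
          rw [mul_pow, mul_comm]
          exact mul_le_mul_of_nonneg_right (by nlinarith [(hx i).1, (hx i).2]) (sq_nonneg _)
      _ ≤ 9 := by
          rw [← Finset.mul_sum]
          linarith [sum_coef_sq_le_one (K + 2) n]
  have h4 := mul_le_mul_of_nonneg_left h3 (by positivity : (0 : ℝ) ≤ scale n ^ 2 / 2)
  have h5 := pen_nonneg (K := K) n x y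
  have e : meanP 1 (stdSys a w).lam = labP a w := rfl
  rw [e] at h2
  unfold objLower
  linarith

lemma objLower_mid (hP : PertShapeStmt) (a : Fin (K + 1) → ℝ) (hn : 0 < n)
    (w : Fin n → Fin (K + 1)) :
    n * labP a w ≤ objLower a w (fun _ => 3 / 2) fun _ => 3 / 2 := by
  have h1 := free_shift_le a (fun _ => 0) (fun _ => 3 / 2) w (scale n) (fun _ : Fin n => (3 / 2 : ℝ))
    (unifBase n) (c := 0) fun k => by norm_num
  have e0 : shifted a n (fun _ => 0) = a := funext fun k => by simp [shifted]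
  rw [e0] at h1
  have h2 := ((hP (K + 2) n n (stdSys a w) hn le_rfl (scale n) (unifBase n)).1
    fun _ => (3 / 2 : ℝ)).1
  rw [free_unif_zero (stdSys a w) hn] at h2
  have e : meanP 1 (stdSys a w).lam = labP a w := rfl
  rw [e] at h2
  have e3 : pen (K := K) n (fun _ : Fin n => (3 / 2 : ℝ)) (fun _ => 3 / 2) = 0 := by simp [pen]
  unfold objLower
  rw [e3]
  linarith

/-- The values of the penalised free energy on the box. -/
def objSet (a : Fin (K + 1) → ℝ) (w : Fin n → Fin (K + 1)) : Set ℝ :=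
  {v | ∃ (x : Fin n → ℝ) (y : Fin (K + 1) → ℝ), (∀ i, x i ∈ Set.Icc (0 : ℝ) 3) ∧
    (∀ k, y k ∈ Set.Icc (0 : ℝ) 3) ∧ v = objLower a w x y}

/-- Its least upper bound. -/
def best (a : Fin (K + 1) → ℝ) (w : Fin n → Fin (K + 1)) : ℝ := sSup (objSet a w)

lemma objSet_nonempty (a : Fin (K + 1) → ℝ) (w : Fin n → Fin (K + 1)) : (objSet a w).Nonempty :=
  ⟨_, fun _ => 3 / 2, fun _ => 3 / 2, fun _ => ⟨by norm_num, by norm_num⟩,
    fun _ => ⟨by norm_num, by norm_num⟩, rfl⟩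

lemma bddAbove_objSet (hP : PertShapeStmt) (a : Fin (K + 1) → ℝ) (hn : 0 < n)
    (w : Fin n → Fin (K + 1)) : BddAbove (objSet a w) :=
  ⟨n * labP a w + 3 / 2 * (eta n * n) + 9 / 2 * scale n ^ 2,
    fun _ ⟨_, _, hx, hy, e⟩ => e ▸ objLower_le hP a hn w hx hy⟩

lemma le_best (hP : PertShapeStmt) (a : Fin (K + 1) → ℝ) (hn : 0 < n) (w : Fin n → Fin (K + 1))
    {x : Fin n → ℝ} {y : Fin (K + 1) → ℝ} (hx : ∀ i, x i ∈ Set.Icc (0 : ℝ) 3)
    (hy : ∀ k, y k ∈ Set.Icc (0 : ℝ) 3) : objLower a w x y ≤ best a w :=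
  le_csSup (bddAbove_objSet hP a hn w) ⟨x, y, hx, hy, rfl⟩

lemma best_le (hP : PertShapeStmt) (a : Fin (K + 1) → ℝ) (hn : 0 < n) (w : Fin n → Fin (K + 1)) :
    best a w ≤ n * labP a w + 3 / 2 * (eta n * n) + 9 / 2 * scale n ^ 2 :=
  csSup_le (objSet_nonempty a w) fun _ ⟨_, _, hx, hy, e⟩ => e ▸ objLower_le hP a hn w hx hy

lemma best_ge (hP : PertShapeStmt) (a : Fin (K + 1) → ℝ) (hn : 0 < n) (w : Fin n → Fin (K + 1)) :
    n * labP a w ≤ best a w :=
  (objLower_mid hP a hn w).trans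
    (le_best hP a hn w (fun _ => ⟨by norm_num, by norm_num⟩) fun _ => ⟨by norm_num, by norm_num⟩)

lemma abs_best_le (hP : PertShapeStmt) (a : Fin (K + 1) → ℝ) (hn : 0 < n)
    (w : Fin n → Fin (K + 1)) : |best a w| ≤ (absSum a + 6) * ((n : ℝ) + 1) := by
  have h1 := best_le hP a hn w
  have h2 := best_ge hP a hn w
  have h3 := abs_le.1 (abs_labP_le a hn w)
  have hn0 : (0 : ℝ) ≤ n := n.cast_nonneg
  have h4 : eta n * n ≤ n := mul_le_of_le_one_left hn0 (eta_le_one hn)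
  have h5 := scale_sq_le n
  have hA : 0 ≤ absSum a := Finset.sum_nonneg fun k _ => abs_nonneg (a k)
  have h6 := mul_le_mul_of_nonneg_left h3.2 hn0
  have h7 := mul_le_mul_of_nonneg_left h3.1 hn0
  rw [abs_le]
  constructor <;> nlinarith

lemma tol_pos (K : ℕ) (hn : 0 < n) : 0 < tol K n := by
  have := scale_pos hn
  exact div_pos (lt_min one_pos (mul_pos (by positivity)
    (Finset.prod_pos fun i _ => pow_pos (coef_pos _ i) 2))) (by positivity)

/-- A nearly maximal point. -/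
lemma exists_near_max (a : Fin (K + 1) → ℝ) (hn : 0 < n)
    (w : Fin n → Fin (K + 1)) :
    ∃ (x : Fin n → ℝ) (y : Fin (K + 1) → ℝ), (∀ i, x i ∈ Set.Icc (0 : ℝ) 3) ∧
      (∀ k, y k ∈ Set.Icc (0 : ℝ) 3) ∧ best a w ≤ objLower a w x y + tol K n := by
  obtain ⟨_, ⟨x, y, hx, hy, rfl⟩, hlt⟩ := exists_lt_of_lt_csSup (objSet_nonempty a w)
    (sub_lt_self (best a w) (tol_pos K hn))
  exact ⟨x, y, hx, hy, by linarith⟩

/-- The error of one step. -/
def growErr (K n : ℕ) : ℝ :=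
  225 * ((n : ℝ) + 1) ^ (-(1 / 4) : ℝ) + (K + 2) * (225 * ((n : ℝ) + 1) ^ (-(1 / 8) : ℝ)) +
    2 * eta n + tol K n

lemma tendsto_growErr (K : ℕ) : Tendsto (growErr K) atTop (𝓝 0) := by
  have hn : Tendsto (fun n : ℕ => (n : ℝ) + 1) atTop atTop :=
    tendsto_atTop_add_const_right _ _ tendsto_natCast_atTop_atTop
  have h1 : Tendsto (fun n : ℕ => ((n : ℝ) + 1) ^ (-(1 / 4) : ℝ)) atTop (𝓝 0) :=
    (tendsto_rpow_neg_atTop (by norm_num)).comp hn
  have h2 : Tendsto (fun n : ℕ => ((n : ℝ) + 1) ^ (-(1 / 8) : ℝ)) atTop (𝓝 0) :=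
    (tendsto_rpow_neg_atTop (by norm_num)).comp hn
  have h3 : Tendsto (fun n : ℕ => tol K n) atTop (𝓝 0) := by
    refine squeeze_zero (tol_nonneg K) (fun n => ?_)
      (tendsto_one_div_add_atTop_nhds_zero_nat (𝕜 := ℝ))
    refine div_le_div₀ zero_le_one (min_le_left _ _) (by positivity) ?_
    rcases Nat.eq_zero_or_pos n with rfl | hn'
    · simp
    · have : (n : ℝ) ≤ (n : ℝ) ^ 8 := le_self_pow₀ (by exact_mod_cast hn') (by norm_num)
      linarith
  unfold growErr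
  simpa using
    (((h1.const_mul 225).add ((h2.const_mul 225).const_mul ((K : ℝ) + 2))).add
      (tendsto_eta.const_mul 2)).add h3

lemma free_atoms_le {N L : ℕ} (a a' : Fin (K + 1) → ℝ) (w : Fin N → Fin (K + 1)) (s : ℝ)
    (x : Fin L → ℝ) (B : RBase N) (c : ℝ) (h : ∀ k, a k ≤ a' k + c) :
    (stdSys a w).free s x B ≤ (stdSys a' w).free s x B + N * c / 2 :=
  free_lam_le (stdSys a w) (stdSys a' w) rfl rfl s x B fun i => h (w i)

/-- One site more. -/
lemma best_grow (hP : PertShapeStmt) (a : Fin (K + 1) → ℝ) (hn : 0 < n)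
    (w : Fin n → Fin (K + 1)) (k : Fin (K + 1)) {x : Fin n → ℝ} {y : Fin (K + 1) → ℝ}
    (hx : ∀ i, x i ∈ Set.Icc (0 : ℝ) 3) (hy : ∀ l, y l ∈ Set.Icc (0 : ℝ) 3)
    (hbest : best a w ≤ objLower a w x y + tol K n) :
    (stdSys (shifted a n y) (Fin.snoc w k)).free (scale n) x (unifBase (n + 1)) -
        (stdSys (shifted a n y) w).free (scale n) x (unifBase n) - growErr K n ≤
      best a (Fin.snoc w k) - best a w := by
  set w' : Fin (n + 1) → Fin (K + 1) := Fin.snoc w k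
  set x' : Fin (n + 1) → ℝ := Fin.snoc x (3 / 2 : ℝ) with hx'
  have hx'b : ∀ i, x' i ∈ Set.Icc (0 : ℝ) 3 := fun i => by
    induction i using Fin.lastCases with
    | last => simp [x']; norm_num
    | cast i => simpa [x'] using hx i
  have h0 := le_best hP a (Nat.succ_pos n) w' hx'b hy
  unfold objLower at h0 hbest
  have hn1 : (n : ℝ) + 1 = ((n + 1 : ℕ) : ℝ) := by push_cast; ring
  have h1 := free_grow hP (stdSys (shifted a (n + 1) y) w') (Nat.succ_pos n) le_rfl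
    (s := scale n) (s' := scale (n + 1)) (Real.rpow_nonneg n.cast_nonneg _)
    (scale_mono n.le_succ) (scale_pos (Nat.succ_pos n)) x (3 / 2) (unifBase (n + 1))
  -- the shift of the atoms
  have hd0 : 0 ≤ eta n - eta (n + 1) := sub_nonneg.2 (Real.rpow_le_rpow_of_nonpos
    (by exact_mod_cast hn) (by push_cast; linarith) (by norm_num))
  have h2 : (stdSys (shifted a n y) w').free (scale n) x (unifBase (n + 1)) ≤
      (stdSys (shifted a (n + 1) y) w').free (scale n) x (unifBase (n + 1)) +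
        ((n + 1 : ℕ) : ℝ) * (3 * (eta n - eta (n + 1))) / 2 := by
    have hc : ∀ l, shifted a n y l ≤
        shifted a (n + 1) y l + 3 * (eta n - eta (n + 1)) := fun l => by
      have h := mul_le_mul_of_nonneg_left (hy l).2 hd0
      simp only [shifted]
      linarith
    exact free_atoms_le (shifted a n y) (shifted a (n + 1) y) w' (scale n) x (unifBase (n + 1))
      (3 * (eta n - eta (n + 1))) hc
  have hn0 : (0 : ℝ) < n := by exact_mod_cast hn
  have hη : ((n : ℝ) + 1) * (eta n - eta (n + 1)) ≤ eta n := by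
    have e : ∀ m : ℕ, 0 < m → eta m * m = (m : ℝ) ^ (7 / 8 : ℝ) := fun m hm => by
      rw [eta, ← Real.rpow_add_one (by exact_mod_cast hm.ne')]; norm_num
    have h := e n hn
    have h' := e (n + 1) (Nat.succ_pos n)
    have hm : (n : ℝ) ^ (7 / 8 : ℝ) ≤ ((n + 1 : ℕ) : ℝ) ^ (7 / 8 : ℝ) :=
      Real.rpow_le_rpow hn0.le (by push_cast; linarith) (by norm_num)
    rw [← h, ← h'] at hm
    push_cast at hm
    linarith
  -- the penalty
  have hs2 : scale (n + 1) ^ 2 - scale n ^ 2 ≤ ((n : ℝ) + 1) ^ (-(1 / 4) : ℝ) := by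
    rw [scale_sq, scale_sq, ← hn1]
    have := rpow_succ_sub_le (n := n) (p := 3 / 4) (by norm_num) hn
    norm_num at this ⊢
    linarith
  have hs0 : 0 ≤ scale (n + 1) ^ 2 - scale n ^ 2 :=
    sub_nonneg.2 (pow_le_pow_left₀ (Real.rpow_nonneg n.cast_nonneg _) (scale_mono n.le_succ) 2)
  have hη2 : eta (n + 1) * ((n + 1 : ℕ) : ℝ) - eta n * n ≤ ((n : ℝ) + 1) ^ (-(1 / 8) : ℝ) := by
    rw [eta, eta, ← Real.rpow_add_one (by positivity), ← Real.rpow_add_one hn0.ne', ← hn1]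
    have := rpow_succ_sub_le (n := n) (p := 7 / 8) (by norm_num) hn
    norm_num at this ⊢
    linarith
  have hS1 : ∑ i : Fin (n + 1), coef (K + 2) i.val ^ 2 * (x' i - 3 / 2) ^ 2 =
      ∑ i : Fin n, coef (K + 2) i.val ^ 2 * (x i - 3 / 2) ^ 2 := by
    rw [Fin.sum_univ_castSucc]; simp [x']
  have hS : ∑ i : Fin n, coef (K + 2) i.val ^ 2 * (x i - 3 / 2) ^ 2 ≤ 9 / 4 := by
    calc _ ≤ ∑ i : Fin n, coef (K + 2) i.val ^ 2 * (9 / 4) := Finset.sum_le_sum fun i _ =>
          mul_le_mul_of_nonneg_left (by nlinarith [(hx i).1, (hx i).2]) (sq_nonneg _)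
      _ ≤ _ := by
          rw [← Finset.sum_mul]
          linarith [mul_le_mul_of_nonneg_right (sum_coef_sq_le_one (K + 2) n)
            (by norm_num : (0 : ℝ) ≤ 9 / 4)]
  have hT : ∑ l, (y l - 3 / 2) ^ 2 ≤ ((K : ℝ) + 2) * (9 / 4) := by
    refine (Finset.sum_le_sum (g := fun _ : Fin (K + 1) => (9 / 4 : ℝ)) fun l _ => ?_).trans ?_
    · nlinarith [(hy l).1, (hy l).2]
    · simp
  have hT0 : 0 ≤ ∑ l, (y l - 3 / 2) ^ 2 := Finset.sum_nonneg fun l _ => sq_nonneg _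
  have hS0 : 0 ≤ ∑ i : Fin n, coef (K + 2) i.val ^ 2 * (x i - 3 / 2) ^ 2 :=
    Finset.sum_nonneg fun l _ => by positivity
  have hpen : pen (n + 1) x' y - pen n x y ≤
      225 * ((n : ℝ) + 1) ^ (-(1 / 4) : ℝ) +
        (K + 2) * (225 * ((n : ℝ) + 1) ^ (-(1 / 8) : ℝ)) := by
    unfold pen
    rw [hS1]
    have p1 := mul_le_mul hs2 hS hS0 (Real.rpow_nonneg (by positivity) _)
    have p2 := mul_le_mul_of_nonneg_right hη2 hT0
    have p3 := mul_le_mul_of_nonneg_left hT (Real.rpow_nonneg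
      (by positivity : (0 : ℝ) ≤ (n : ℝ) + 1) (-(1 / 8) : ℝ))
    linarith
  have htol := hbest
  unfold growErr
  push_cast at h2
  have hη0 := eta_nonneg n
  linarith

end Vale.Agent.P166.Haar2
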