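import Vale.Agent.P166.Haar2.Statements
import Vale.Agent.P166.Haar2.Basic

/-!
The penalty of the parameters, and where its nearly maximal points lie.
-/

noncomputable section

open MeasureTheory Filter
open scoped BigOperators Topology

namespace Vale.Agent.P166.Haar2

open Vale.Agent.P157.Parisi (Cube scale)

variable {K N : ℕ}

lemma coef_pos (G i : ℕ) : 0 < coef G i := by unfold coef; positivity

lemma coef_le_one (G i : ℕ) : coef G i ≤ 1 := by
  unfold coef
  rw [div_le_one (by positivity)]
  exact (pow_le_one₀ (by norm_num) (by norm_num)).trans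
    (le_add_of_nonneg_right (Nat.cast_nonneg _))

lemma coef_sq_le_one (G i : ℕ) : coef G i ^ 2 ≤ 1 :=
  pow_le_one₀ (coef_pos G i).le (coef_le_one G i)

lemma scale_pos (hN : 0 < N) : 0 < scale N := by
  unfold scale; exact Real.rpow_pos_of_pos (by exact_mod_cast hN) _

lemma eta_pos (hN : 0 < N) : 0 < eta N :=
  Real.rpow_pos_of_pos (by exact_mod_cast hN) _

lemma eta_nonneg (N : ℕ) : 0 ≤ eta N := Real.rpow_nonneg (Nat.cast_nonneg _) _

lemma eta_le_one (hN : 0 < N) : eta N ≤ 1 :=
  Real.rpow_le_one_of_one_le_of_nonpos (by exact_mod_cast hN) (by norm_num)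

lemma diffStep_nonneg (N : ℕ) : 0 ≤ diffStep N := Real.rpow_nonneg (Nat.cast_nonneg _) _

lemma diffStep_le_one (hN : 0 < N) : diffStep N ≤ 1 :=
  Real.rpow_le_one_of_one_le_of_nonpos (by exact_mod_cast hN) (by norm_num)

lemma eta_mul_ge_one (hN : 0 < N) : 1 ≤ eta N * N := by
  have hN' : (1 : ℝ) ≤ N := by exact_mod_cast hN
  rw [eta, ← Real.rpow_add_one (by positivity)]
  exact Real.one_le_rpow hN' (by norm_num)

lemma tendsto_eta : Tendsto eta atTop (𝓝 0) :=
  (tendsto_rpow_neg_atTop (by norm_num)).comp tendsto_natCast_atTop_atTop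

lemma tol_nonneg (K N : ℕ) : 0 ≤ tol K N := by
  unfold tol; exact div_nonneg (le_min zero_le_one (by positivity)) (by positivity)

lemma tol_le (K N : ℕ) :
    tol K N ≤ min 1 (scale N ^ 2 * ∏ i ∈ Finset.range N, coef (K + 2) i ^ 2) :=
  div_le_self (le_min zero_le_one (by positivity))
    (le_add_of_nonneg_right (by positivity))

lemma tol_le_one (K N : ℕ) : tol K N ≤ 1 := (tol_le K N).trans (min_le_left _ _)

lemma tol_le_coef (K : ℕ) (i : Fin N) : tol K N ≤ scale N ^ 2 * coef (K + 2) i.val ^ 2 := by
  refine ((tol_le K N).trans (min_le_right _ _)).trans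
    (mul_le_mul_of_nonneg_left ?_ (sq_nonneg _))
  rw [← Finset.mul_prod_erase _ _ (Finset.mem_range.2 i.isLt)]
  exact mul_le_of_le_one_right (sq_nonneg _)
    (Finset.prod_le_one (fun _ _ => sq_nonneg _) fun _ _ => coef_sq_le_one _ _)

lemma pen_update_x (x : Fin N → ℝ) (y : Fin (K + 1) → ℝ) (i : Fin N) (v : ℝ) :
    pen N (Function.update x i v) y =
      pen N x y + 100 * scale N ^ 2 * (coef (K + 2) i.val ^ 2 *
        ((v - 3 / 2) ^ 2 - (x i - 3 / 2) ^ 2)) := by
  have h : ∀ g : Fin N → ℝ, ∑ j, coef (K + 2) j.val ^ 2 * (g j - 3 / 2) ^ 2 =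
      coef (K + 2) i.val ^ 2 * (g i - 3 / 2) ^ 2 +
        ∑ j ∈ Finset.univ.erase i, coef (K + 2) j.val ^ 2 * (g j - 3 / 2) ^ 2 := fun g =>
    (Finset.add_sum_erase _ _ (Finset.mem_univ i)).symm
  unfold pen
  rw [h (Function.update x i v), h x, Function.update_self,
    Finset.sum_congr rfl fun j hj => by rw [Function.update_of_ne (Finset.ne_of_mem_erase hj)]]
  ring

lemma pen_update_y (x : Fin N → ℝ) (y : Fin (K + 1) → ℝ) (k : Fin (K + 1)) (v : ℝ) :
    pen N x (Function.update y k v) =
      pen N x y + 100 * (eta N * N) * ((v - 3 / 2) ^ 2 - (y k - 3 / 2) ^ 2) := by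
  have h : ∀ g : Fin (K + 1) → ℝ, ∑ j, (g j - 3 / 2) ^ 2 =
      (g k - 3 / 2) ^ 2 + ∑ j ∈ Finset.univ.erase k, (g j - 3 / 2) ^ 2 := fun g =>
    (Finset.add_sum_erase _ _ (Finset.mem_univ k)).symm
  have e : ∑ j ∈ Finset.univ.erase k, (Function.update y k v j - 3 / 2) ^ 2 =
      ∑ j ∈ Finset.univ.erase k, (y j - 3 / 2) ^ 2 :=
    Finset.sum_congr rfl fun j hj => by rw [Function.update_of_ne (Finset.ne_of_mem_erase hj)]
  unfold pen
  rw [h (Function.update y k v), h y, Function.update_self, e]
  ring

lemma shifted_update (a : Fin (K + 1) → ℝ) (y : Fin (K + 1) → ℝ) (k : Fin (K + 1)) (d : ℝ) :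
    shifted a N (Function.update y k (y k + d)) =
      Function.update (shifted a N y) k (shifted a N y k + eta N * d) := by
  funext i
  by_cases h : i = k
  · subst h; simp only [shifted, Function.update_self]; ring
  · simp only [shifted, Function.update_of_ne h]

/-- Replacing one shift moves the free energy by at most `N η` times half the change. -/
lemma free_shift_le (a y y' : Fin (K + 1) → ℝ) (w : Fin N → Fin (K + 1)) {L : ℕ} (s : ℝ)
    (x : Fin L → ℝ) (B : RBase N) {c : ℝ} (h : ∀ k, y k ≤ y' k + c) :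
    (stdSys (shifted a N y) w).free s x B ≤
      (stdSys (shifted a N y') w).free s x B + N * (eta N * c) / 2 := by
  refine free_lam_le (stdSys (shifted a N y) w) (stdSys (shifted a N y') w) rfl rfl s x B
    fun i => ?_
  simp only [stdSys, shifted]
  linarith [mul_le_mul_of_nonneg_left (h (w i)) (eta_nonneg N)]

/-- Nearly maximal parameters are interior. -/
lemma near_max_interior (hP : PertShapeStmt) (hN : 0 < N) (a : Fin (K + 1) → ℝ)
    (w : Fin N → Fin (K + 1)) (x : Fin N → ℝ) (y : Fin (K + 1) → ℝ)
    (hx : ∀ i, x i ∈ Set.Icc (0 : ℝ) 3) (hy : ∀ k, y k ∈ Set.Icc (0 : ℝ) 3)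
    (hmax : ∀ x' y', (∀ i, x' i ∈ Set.Icc (0 : ℝ) 3) → (∀ k, y' k ∈ Set.Icc (0 : ℝ) 3) →
      objLower a w x' y' ≤ objLower a w x y + tol K N) :
    (∀ i, x i ∈ Set.Icc (1 : ℝ) 2) ∧ ∀ k, y k ∈ Set.Icc (1 : ℝ) 2 := by
  have hs := scale_pos hN
  have hη := eta_mul_ge_one hN
  constructor
  · intro i
    set x' := Function.update x i (3 / 2) with hx'
    have hx'b : ∀ l, x' l ∈ Set.Icc (0 : ℝ) 3 := by
      intro l
      by_cases hl : l = i
      · subst hl; simp [x']; norm_num
      · simpa [x', Function.update_of_ne hl] using hx l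
    have hm := hmax x' y hx'b hy
    unfold objLower at hm
    rw [pen_update_x, sub_self, zero_pow two_ne_zero, zero_sub] at hm
    have ht := tol_le_coef K i
    have hc : 0 < scale N ^ 2 * coef (K + 2) i.val ^ 2 := by
      have := coef_pos (K + 2) i.val; positivity
    have hsh := hP (K + 2) N N (stdSys (shifted a N y) w) hN le_rfl (scale N) (unifBase N)
    constructor
    · by_contra hlt
      push Not at hlt
      have hmono : ∀ l, |x l| ≤ |x' l| := by
        intro l
        by_cases hl : l = i
        · subst hl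
          simp only [x', Function.update_self]
          rw [abs_of_nonneg (hx l).1]
          norm_num
          linarith
        · simp [x', Function.update_of_ne hl]
      have h1 := (hsh.2 x x' hmono).1
      have h2 : 1 / 4 ≤ (x i - 3 / 2) ^ 2 := by nlinarith
      nlinarith [mul_le_mul_of_nonneg_left h2 hc.le]
    · by_contra hlt
      push Not at hlt
      have hmono : ∀ l, |x' l| ≤ |x l| := by
        intro l
        by_cases hl : l = i
        · subst hl
          simp only [x', Function.update_self]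
          rw [abs_of_nonneg (hx l).1]
          norm_num
          linarith
        · simp [x', Function.update_of_ne hl]
      have h1 := (hsh.2 x' x hmono).2
      have h2 : ∑ l : Fin N, coef (K + 2) l.val ^ 2 * (x l ^ 2 - x' l ^ 2) =
          coef (K + 2) i.val ^ 2 * (x i ^ 2 - (3 / 2) ^ 2) := by
        rw [Finset.sum_eq_single i (fun l _ hl => by simp [x', Function.update_of_ne hl])
          (fun h => absurd (Finset.mem_univ i) h)]
        simp [x']
      rw [h2] at h1
      have h3 : x i ^ 2 - (3 / 2) ^ 2 ≤ 18 * (x i - 3 / 2) ^ 2 := by nlinarith [(hx i).2]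
      have h4 : 1 / 4 ≤ (x i - 3 / 2) ^ 2 := by nlinarith
      nlinarith [mul_le_mul_of_nonneg_left h3 hc.le, mul_le_mul_of_nonneg_left h4 hc.le]
  · intro k
    set y' := Function.update y k (3 / 2) with hy'
    have hy'b : ∀ l, y' l ∈ Set.Icc (0 : ℝ) 3 := by
      intro l
      by_cases hl : l = k
      · subst hl; simp [y']; norm_num
      · simpa [y', Function.update_of_ne hl] using hy l
    have hm := hmax x y' hx hy'b
    unfold objLower at hm
    rw [pen_update_y, sub_self, zero_pow two_ne_zero, zero_sub] at hm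
    have ht := tol_le_one K N
    constructor
    · by_contra hlt
      push Not at hlt
      have h1 := free_shift_le a y y' w (scale N) x (unifBase N) (c := 0) fun l => by
        by_cases hl : l = k
        · subst hl; simp [y']; linarith
        · simp [y', Function.update_of_ne hl]
      have h2 : 1 / 4 ≤ (y k - 3 / 2) ^ 2 := by nlinarith
      nlinarith [mul_le_mul_of_nonneg_left h2 (zero_le_one.trans hη)]
    · by_contra hlt
      push Not at hlt
      have h1 := free_shift_le a y y' w (scale N) x (unifBase N) (c := y k - 3 / 2) fun l => by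
        by_cases hl : l = k
        · subst hl; simp [y']
        · simp [y', Function.update_of_ne hl]; linarith
      have h2 : (y k - 3 / 2) ≤ 2 * (y k - 3 / 2) ^ 2 := by nlinarith
      have h4 : 1 / 4 ≤ (y k - 3 / 2) ^ 2 := by nlinarith
      nlinarith [mul_le_mul_of_nonneg_left h2 (zero_le_one.trans hη),
        mul_le_mul_of_nonneg_left h4 (zero_le_one.trans hη)]

end Vale.Agent.P166.Haar2
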