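import Vale.Agent.P166.Haar2.CascValue.Main
import Vale.Agent.P166.Haar2.Algebra.Calc
import Vale.Agent.P157.Full.Formula

/-!
The step value against the values of the two demotion weights on a cascade, uniformly in the path.
-/

noncomputable section

open MeasureTheory
open scoped BigOperators

namespace Vale.Agent.P166.Haar2

open Vale.Agent.P157.Parisi (IsPath siteValue weight)
open Vale.Agent.P157.Parisi.Full (IsFieldPath siteSlope)
open Vale.Agent.P168.Cascade (Exps)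

/-- The demotion weight is continuous and has Gaussian bounds on both sides. -/
lemma stepX_bound {K : ℕ} (θ b : Fin (K + 1) → ℝ) (hθ : ∀ j, 0 ≤ θ j)
    (hb : ∀ j, θ j = 0 → b j = 0) (lin : Bool) :
    Continuous (stepX θ b 0 lin) ∧ ∃ C : ℝ, ∀ z, Real.exp (-(C * (1 + ∑ i, z i ^ 2))) ≤
      stepX θ b 0 lin z ∧ stepX θ b 0 lin z ≤ C := by
  refine ⟨by unfold stepX; cases lin <;> simp <;> fun_prop,
    max (∑ j, θ j) (Real.exp (∑ j, b j ^ 2 / (2 * θ j))), fun z => ?_⟩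
  have e : stepX θ b 0 lin z =
      Real.exp (-(∑ j, θ j * z (Sum.inl j) ^ 2) / 2) * Real.cosh (∑ j, b j * z (Sum.inl j)) := by
    cases lin <;> simp [stepX]
  rw [e]
  set C := max (∑ j, θ j) (Real.exp (∑ j, b j ^ 2 / (2 * θ j)))
  have hS : 0 ≤ ∑ j, θ j := Finset.sum_nonneg fun j _ => hθ j
  constructor
  · refine le_trans ?_ (le_mul_of_one_le_right (Real.exp_pos _).le (Real.one_le_cosh _))
    refine Real.exp_le_exp.2 ?_
    have hj : ∑ j, θ j * z (Sum.inl j) ^ 2 ≤ (∑ j, θ j) * ∑ i, z i ^ 2 := by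
      rw [Finset.sum_mul]
      exact Finset.sum_le_sum fun j _ => mul_le_mul_of_nonneg_left
        (Finset.single_le_sum (f := fun i => z i ^ 2) (fun i _ => sq_nonneg _)
          (Finset.mem_univ _)) (hθ j)
    have hz : 0 ≤ ∑ i, z i ^ 2 := Finset.sum_nonneg fun i _ => sq_nonneg _
    have h0 : 0 ≤ ∑ j, θ j * z (Sum.inl j) ^ 2 :=
      Finset.sum_nonneg fun j _ => mul_nonneg (hθ j) (sq_nonneg _)
    have h1 : (∑ j, θ j) * ∑ i, z i ^ 2 ≤ C * (1 + ∑ i, z i ^ 2) :=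
      mul_le_mul (le_max_left _ _) (by linarith) hz (hS.trans (le_max_left _ _))
    linarith
  · refine le_trans ?_ (le_max_right _ _)
    have hc : Real.cosh (∑ j, b j * z (Sum.inl j)) ≤ Real.exp (∑ j, |b j * z (Sum.inl j)|) := by
      rw [← Real.cosh_abs, Real.cosh_eq]
      have hab := Finset.abs_sum_le_sum_abs (fun j => b j * z (Sum.inl j)) Finset.univ
      have h1 := Real.exp_le_exp.2 hab
      have h2 := Real.exp_le_exp.2 ((neg_le_self (abs_nonneg
        (∑ j, b j * z (Sum.inl j)))).trans hab)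
      linarith
    refine (mul_le_mul_of_nonneg_left hc (Real.exp_pos _).le).trans ?_
    rw [← Real.exp_add, Real.exp_le_exp, neg_div, Finset.sum_div, neg_add_eq_sub,
      ← Finset.sum_sub_distrib]
    refine Finset.sum_le_sum fun j _ => ?_
    rcases (hθ j).eq_or_lt with h | h
    · simp [hb j h.symm, ← h]
    · rw [abs_mul, le_div_iff₀ (by linarith : (0 : ℝ) < 2 * θ j), ← sq_abs (b j),
        ← sq_abs (z (Sum.inl j))]
      nlinarith [sq_nonneg (θ j * |z (Sum.inl j)| - |b j|)]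

namespace Closed

open Vale.Agent.P166.Haar2.Algebra

variable {r : ℕ} {m : Fin r → ℝ}

/-- A calculus with small derivative is small. -/
lemma calc_small (h : Exp m) {P : El r} (hP : P.IsCov) {g g1 : ℝ → ℝ} {L : ℝ} (hL : 0 ≤ L)
    (h0 : g 0 = 0) (hg : ∀ u v, 0 ≤ v → v ≤ u → u ≤ P.s → |g u - g v| ≤ L * (u - v))
    (h1 : ∀ u, 0 ≤ u → u ≤ P.s → |g1 u| ≤ L) :
    |(El.calc' m g g1 P).s| ≤ L * P.s ∧ ∀ p, |(El.calc' m g g1 P).v p| ≤ L * P.s := by
  rw [calc'_eq]
  have ha : |g (El.eig m P (Fin.last r))| ≤ L * (P.s - P.v (Fin.last r)) := by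
    have e := hg _ 0 le_rfl (eig_mem h hP (Fin.last r)).1 (eig_mem h hP (Fin.last r)).2
    rw [h0, sub_zero, sub_zero, eig_last] at e
    rwa [eig_last]
  have hb : |g1 (El.eig m P 0) * P.v 0| ≤ L * P.v 0 := by
    rw [abs_mul, abs_of_nonneg hP.nonneg]
    exact mul_le_mul_of_nonneg_right (h1 _ (eig_mem h hP 0).1 (eig_mem h hP 0).2) hP.nonneg
  have hv : var m (fun p => g (El.eig m P p)) ≤ L * (P.v (Fin.last r) - P.v 0) := by
    refine (var_le h (e := El.eig m P) (e' := El.eig m P) (L := L) (L' := 0) fun i => ?_).trans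
      (le_of_eq ?_)
    · rw [zero_mul, add_zero, abs_of_nonneg (sub_nonneg.2 (eig_anti h hP i))]
      exact hg _ _ (eig_mem h hP _).1 (eig_anti h hP i) (eig_mem h hP _).2
    · rw [var_eig h hP]; ring
  obtain ⟨e1, e2⟩ := mk'_abs_le h (fun p => g (El.eig m P p)) (g1 (El.eig m P 0) * P.v 0)
  refine ⟨e1.trans (by linarith), fun p => (e2 p).trans ?_⟩
  have := mul_le_mul_of_nonneg_left hP.le hL
  linarith

lemma calc_sub (h : Exp m) (f f1 g g1 : ℝ → ℝ) (P : El r) :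
    sub (El.calc' m f f1 P) (El.calc' m g g1 P) =
      El.calc' m (fun u => f u - g u) (fun u => f1 u - g1 u) P := by
  refine ext_eig h (fun p => ?_) ?_
  · simp only [eig_sub, calc'_eq, eig_mk' h]
  · show (El.calc' m f f1 P).v 0 - (El.calc' m g g1 P).v 0 = _
    simp only [calc'_eq, mk'_v_zero]
    ring

lemma one_le_den {θ u : ℝ} (hθ : 0 ≤ θ) (hu : 0 ≤ u) : 1 ≤ 1 + θ * u :=
  le_add_of_nonneg_right (mul_nonneg hθ hu)

lemma inv_den_lip {θ θ' u : ℝ} (hθ : 0 ≤ θ) (hθ' : 0 ≤ θ') (hu : 0 ≤ u) :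
    |1 / (1 + θ' * u) - 1 / (1 + θ * u)| ≤ |θ' - θ| * u := by
  have a := one_le_den hθ hu
  have a' := one_le_den hθ' hu
  rw [div_sub_div _ _ (by linarith) (by linarith), one_mul, mul_one, abs_div,
    show (1 + θ * u) - (1 + θ' * u) = -((θ' - θ) * u) by ring, abs_neg, abs_mul, abs_of_nonneg hu,
    abs_of_pos (mul_pos (show (0 : ℝ) < 1 + θ' * u by linarith) (show (0 : ℝ) < 1 + θ * u by linarith))]
  exact div_le_self (mul_nonneg (abs_nonneg _) hu) (one_le_mul_of_one_le_of_one_le a' a)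

lemma logF_lip {θ θ' u v : ℝ} (hθ : 0 ≤ θ) (hθθ : θ ≤ θ') (hv : 0 ≤ v) (hvu : v ≤ u) :
    |(logF θ' u - logF θ u) - (logF θ' v - logF θ v)| ≤ (θ' - θ) * (u - v) := by
  have a := one_le_den hθ (hv.trans hvu)
  have b := one_le_den hθ hv
  have a' := one_le_den (hθ.trans hθθ) (hv.trans hvu)
  have b' := one_le_den (hθ.trans hθθ) hv
  have e : (1 + θ' * u) * (1 + θ * v) - (1 + θ * u) * (1 + θ' * v) = (θ' - θ) * (u - v) := by ring
  have hnn : 0 ≤ (θ' - θ) * (u - v) := mul_nonneg (sub_nonneg.2 hθθ) (sub_nonneg.2 hvu)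
  have hd : 0 < (1 + θ * u) * (1 + θ' * v) := by positivity
  have hr : 1 ≤ (1 + θ' * u) * (1 + θ * v) / ((1 + θ * u) * (1 + θ' * v)) :=
    (one_le_div hd).2 (by linarith)
  have el : (logF θ' u - logF θ u) - (logF θ' v - logF θ v) =
      Real.log ((1 + θ' * u) * (1 + θ * v) / ((1 + θ * u) * (1 + θ' * v))) := by
    simp only [logF]
    rw [Real.log_div (by positivity) (by positivity), Real.log_mul (by linarith) (by linarith),
      Real.log_mul (by linarith) (by linarith)]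
    ring
  rw [el, abs_of_nonneg (Real.log_nonneg hr)]
  refine (Real.log_le_sub_one_of_pos (zero_lt_one.trans_le hr)).trans ?_
  rw [div_sub_one hd.ne', e]
  exact div_le_self hnn (one_le_mul_of_one_le_of_one_le a b')

lemma dampF_lip {θ θ' u v S : ℝ} (hθ : 0 ≤ θ) (hθ' : 0 ≤ θ') (hv : 0 ≤ v) (hvu : v ≤ u)
    (hu : u ≤ S) :
    |(dampF θ' u - dampF θ u) - (dampF θ' v - dampF θ v)| ≤ 2 * S * |θ' - θ| * (u - v) := by
  have h0 : 0 ≤ u := hv.trans hvu
  have a := one_le_den hθ h0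
  have b := one_le_den hθ hv
  have a' := one_le_den hθ' h0
  have b' := one_le_den hθ' hv
  have e : ∀ x, 0 < 1 + x * u → 0 < 1 + x * v →
      dampF x u - dampF x v = (u - v) * (1 / (1 + x * u) * (1 / (1 + x * v))) := fun x hx hy => by
    simp only [dampF]
    rw [div_sub_div _ _ hx.ne' hy.ne', one_div_mul_one_div, ← mul_div_assoc, mul_one]
    congr 1
    ring
  rw [show (dampF θ' u - dampF θ u) - (dampF θ' v - dampF θ v) =
      (dampF θ' u - dampF θ' v) - (dampF θ u - dampF θ v) by ring,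
    e θ' (by linarith) (by linarith), e θ (by linarith) (by linarith), ← mul_sub, abs_mul,
    abs_of_nonneg (sub_nonneg.2 hvu), mul_comm _ (u - v)]
  refine mul_le_mul_of_nonneg_left ?_ (sub_nonneg.2 hvu)
  have t1 := inv_den_lip hθ hθ' h0
  have t2 := inv_den_lip hθ hθ' hv
  have p1 : |1 / (1 + θ' * v)| ≤ 1 := by
    rw [abs_of_pos (by positivity), div_le_one (by linarith)]; exact b'
  have p2 : |1 / (1 + θ * u)| ≤ 1 := by
    rw [abs_of_pos (by positivity), div_le_one (by linarith)]; exact a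
  rw [show 1 / (1 + θ' * u) * (1 / (1 + θ' * v)) - 1 / (1 + θ * u) * (1 / (1 + θ * v)) =
      (1 / (1 + θ' * u) - 1 / (1 + θ * u)) * (1 / (1 + θ' * v)) +
        1 / (1 + θ * u) * (1 / (1 + θ' * v) - 1 / (1 + θ * v)) by ring]
  refine (abs_add_le _ _).trans ?_
  rw [abs_mul, abs_mul]
  have q1 := (mul_le_of_le_one_right (abs_nonneg _) p1).trans t1
  have q2 := (mul_le_of_le_one_left (abs_nonneg _) p2).trans t2
  have := mul_le_mul_of_nonneg_left hu (abs_nonneg (θ' - θ))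
  have := mul_le_mul_of_nonneg_left (hvu.trans hu) (abs_nonneg (θ' - θ))
  linarith

lemma quadV_lip (h : Exp m) {P : El r} (hP : P.IsCov) {θ θ' : ℝ} (hθ : 0 ≤ θ) (hθθ : θ ≤ θ') :
    |quadV m θ' P - quadV m θ P| ≤ (θ' - θ) * P.s := by
  have hd := sub_nonneg.2 hθθ
  have hs : |(sub (El.calc' m (logF θ') (logF1 θ') P) (El.calc' m (logF θ) (logF1 θ) P)).s| ≤
      (θ' - θ) * P.s := by
    rw [calc_sub h]
    refine (calc_small h hP hd (by simp [logF]) (fun u v hv hvu _ => logF_lip hθ hθθ hv hvu)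
      fun u hu _ => ?_).1
    have a := one_le_den hθ hu
    have a' := one_le_den (hθ.trans hθθ) hu
    rw [logF1, logF1, div_sub_div _ _ (by linarith) (by linarith), abs_div,
      show θ' * (1 + θ * u) - (1 + θ' * u) * θ = θ' - θ by ring, abs_of_nonneg hd]
    exact div_le_self hd ((one_le_mul_of_one_le_of_one_le a' a).trans (le_abs_self _))
  have hP0 : 0 ≤ P.s := (eig_mem h hP 0).1.trans (eig_mem h hP 0).2
  rw [quadV, quadV, ← mul_sub, abs_mul]
  refine (mul_le_of_le_one_left (abs_nonneg _) (by norm_num)).trans hs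

lemma dampEl_lip (h : Exp m) {P : El r} (hP : P.IsCov) {θ θ' S : ℝ} (hθ : 0 ≤ θ) (hθ' : 0 ≤ θ')
    (hS : P.s ≤ S) :
    |(dampEl m θ' P).s - (dampEl m θ P).s| ≤ 2 * S * |θ' - θ| * S ∧
      ∀ p, |(dampEl m θ' P).v p - (dampEl m θ P).v p| ≤ 2 * S * |θ' - θ| * S := by
  have hP0 : 0 ≤ P.s := (eig_mem h hP 0).1.trans (eig_mem h hP 0).2
  have hS0 : 0 ≤ S := hP0.trans hS
  have hL : 0 ≤ 2 * S * |θ' - θ| := mul_nonneg (by linarith) (abs_nonneg _)
  have key : |(sub (dampEl m θ' P) (dampEl m θ P)).s| ≤ 2 * S * |θ' - θ| * P.s ∧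
      ∀ p, |(sub (dampEl m θ' P) (dampEl m θ P)).v p| ≤ 2 * S * |θ' - θ| * P.s := by
    simp only [dampEl]
    rw [calc_sub h]
    refine calc_small h hP hL (by simp [dampF])
      (fun u v hv hvu hu => dampF_lip hθ hθ' hv hvu (hu.trans hS)) fun u hu hu' => ?_
    have a := one_le_den hθ hu
    have a' := one_le_den hθ' hu
    have t := inv_den_lip hθ hθ' hu
    have e : dampF1 θ' u - dampF1 θ u = (1 / (1 + θ' * u) - 1 / (1 + θ * u)) *
        (1 / (1 + θ' * u) + 1 / (1 + θ * u)) := by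
      simp only [dampF1, ← one_div_pow]; ring
    rw [e, abs_mul]
    have p : |1 / (1 + θ' * u) + 1 / (1 + θ * u)| ≤ 2 := by
      rw [abs_of_pos (by positivity)]
      have := (div_le_one (show (0 : ℝ) < 1 + θ' * u by linarith)).2 a'
      have := (div_le_one (show (0 : ℝ) < 1 + θ * u by linarith)).2 a
      linarith
    refine (mul_le_mul t p (abs_nonneg _) (mul_nonneg (abs_nonneg _) hu)).trans ?_
    have := mul_le_mul_of_nonneg_left (hu'.trans hS) (abs_nonneg (θ' - θ))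
    linarith
  exact ⟨key.1.trans (mul_le_mul_of_nonneg_left hS hL),
    fun p => (key.2 p).trans (mul_le_mul_of_nonneg_left hS hL)⟩

end Closed

namespace Closed

open Vale.Agent.P166.Haar2.Algebra

variable {r K : ℕ} {m : Fin r → ℝ}

lemma dampEl_cov (h : Exp m) {P : El r} (hP : P.IsCov) {θ : ℝ} (hθ : 0 ≤ θ) :
    (dampEl m θ P).IsCov := by
  refine (calc'_cov (L := 1) h hP (by simp [dampF]) (fun u u' hu hu' => ?_) fun u hu => ?_).1
  · have a := one_le_den hθ hu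
    have a' := one_le_den hθ (hu.trans hu')
    have e : dampF θ u' - dampF θ u = (u' - u) * (1 / (1 + θ * u') * (1 / (1 + θ * u))) := by
      simp only [dampF]
      rw [div_sub_div _ _ (by linarith) (by linarith), one_div_mul_one_div, ← mul_div_assoc, mul_one]
      congr 1
      ring
    refine ⟨sub_nonneg.1 (by rw [e]; exact mul_nonneg (sub_nonneg.2 hu') (by positivity)), ?_⟩
    rw [e, one_mul]
    exact mul_le_of_le_one_right (sub_nonneg.2 hu') (mul_le_one₀
      ((div_le_one (by linarith)).2 a') (by positivity) ((div_le_one (by linarith)).2 a))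
  · have a := one_le_den hθ hu
    exact ⟨by unfold dampF1; positivity, by
      unfold dampF1
      rw [div_le_one (by positivity)]
      exact one_le_pow₀ a⟩

/-- A uniform change of the field moves the site part little. -/
lemma site_lower {ρ ρ' : Fin (r + 1) → ℝ} (hρ : IsFieldPath m ρ) (hρ' : IsFieldPath m ρ') {D : ℝ}
    (hD : ∀ p, |ρ p - ρ' p| ≤ D) : siteValue m ρ - D / 2 ≤ siteValue m ρ' := by
  have h : Exp m := ⟨hρ.pos, hρ.lt_one, hρ.strictMono⟩
  have hc := Vale.Agent.P157.Parisi.Full.concave r m ρ' ρ hρ' hρ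
  have hsl := Vale.Agent.P157.Parisi.Full.Concave.siteSlope_spec r m ρ' hρ'
  have hb : |∑ p, weight m p * siteSlope m ρ' p * (ρ p - ρ' p)| ≤ D := by
    refine (Finset.abs_sum_le_sum_abs _ _).trans (le_trans (Finset.sum_le_sum fun p _ => ?_)
      (mean_le h (f := fun p => |ρ p - ρ' p|) hD))
    rw [abs_mul, abs_mul, abs_of_nonneg (weight_nonneg h p), mul_assoc,
      abs_of_nonneg (hsl.2 p).1]
    exact mul_le_mul_of_nonneg_left
      (mul_le_of_le_one_left (abs_nonneg _) (hsl.2 p).2) (weight_nonneg h p)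
  have := (abs_le.1 hb).1
  linarith

lemma quad_sum_le (h : Exp m) {P : El r} (hP : P.IsCov) {S : ℝ} (hS : P.s ≤ S)
    {θ θ' : Fin K → ℝ} {d : ℝ} (hd : 0 ≤ d) (hθ : ∀ j, 0 ≤ θ j) (he : ∀ j, θ' j = θ j + d) :
    |∑ j, quadV m (θ' j) P - ∑ j, quadV m (θ j) P| ≤ K * (d * S) := by
  rw [← Finset.sum_sub_distrib]
  refine (Finset.abs_sum_le_sum_abs _ _).trans ?_
  calc ∑ j, |quadV m (θ' j) P - quadV m (θ j) P| ≤ ∑ _j : Fin K, d * S :=
      Finset.sum_le_sum fun j _ => by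
        have e := quadV_lip h hP (hθ j) (le_add_of_nonneg_right hd)
        rw [add_sub_cancel_left] at e
        rw [he]
        exact e.trans (mul_le_mul_of_nonneg_left hS hd)
    _ = K * (d * S) := by simp

lemma damp_sum_le (h : Exp m) {P : El r} (hP : P.IsCov) {S : ℝ} (hS : P.s ≤ S)
    {θ : Fin K → ℝ} (b : Fin K → ℝ) {d : ℝ} (hd : 0 ≤ d) (hθ : ∀ j, 0 ≤ θ j) :
    |∑ j, b j ^ 2 * (dampEl m (θ j + d) P).s - ∑ j, b j ^ 2 * (dampEl m (θ j) P).s| ≤
        (∑ j, b j ^ 2) * (2 * S * d * S) ∧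
      ∀ p, |∑ j, b j ^ 2 * (dampEl m (θ j) P).v p - ∑ j, b j ^ 2 * (dampEl m (θ j + d) P).v p| ≤
        (∑ j, b j ^ 2) * (2 * S * d * S) := by
  have hdd : ∀ j, |(dampEl m (θ j + d) P).s - (dampEl m (θ j) P).s| ≤ 2 * S * d * S ∧
      ∀ p, |(dampEl m (θ j + d) P).v p - (dampEl m (θ j) P).v p| ≤ 2 * S * d * S := fun j => by
    have e := dampEl_lip h hP (hθ j) (add_nonneg (hθ j) hd) hS
    rwa [add_sub_cancel_left, abs_of_nonneg hd] at e
  refine ⟨?_, fun p => ?_⟩ <;> rw [← Finset.sum_sub_distrib, Finset.sum_mul] <;>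
    refine (Finset.abs_sum_le_sum_abs _ _).trans (Finset.sum_le_sum fun j _ => ?_) <;>
    rw [← mul_sub, abs_mul, abs_of_nonneg (sq_nonneg _)]
  · exact mul_le_mul_of_nonneg_left (hdd j).1 (sq_nonneg _)
  · rw [abs_sub_comm]
    exact mul_le_mul_of_nonneg_left ((hdd j).2 p) (sq_nonneg _)

lemma small_sum {e ε K S B d d' : ℝ} (hK : 0 ≤ K) (hS : 0 ≤ S) (hB : 0 ≤ B)
    (he : e ≤ ε / (2 * K * S + B * (2 * S * S) + 1)) (hd : d ≤ e) (hd' : d' ≤ e) (he0 : 0 ≤ e) :
    K * (d * S) + K * (d' * S) + B * (2 * S * d * S) ≤ ε := by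
  rw [le_div_iff₀ (by positivity)] at he
  have := mul_le_mul_of_nonneg_left hd (mul_nonneg hK hS)
  have := mul_le_mul_of_nonneg_left hd' (mul_nonneg hK hS)
  have := mul_le_mul_of_nonneg_left hd (mul_nonneg hB (by positivity : (0 : ℝ) ≤ 2 * S * S))
  nlinarith

lemma quadV_zero (m : Fin r → ℝ) (x : El r) : quadV m 0 x = 0 := by
  simp [quadV, El.calc', logF, logF1]

lemma closed_site (hV : CascValueStmt) (hm : Exps m) {P E : El r} (hP : P.IsCov) (hE : E.IsCov)
    {θ : Fin K → ℝ} {γ : ℝ} (b : Fin K → ℝ) (hθ : ∀ j, 0 ≤ θ j) (hγ : 0 ≤ γ) :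
    cascV m (Sum.elim (fun _ => P) fun _ => E) (stepX (Fin.snoc θ γ) (Fin.snoc b 0) 0 false) =
      (∑ j, quadV m (θ j) P) + quadV m γ P +
        siteValue m (fun p => ∑ j, b j ^ 2 * (dampEl m (θ j) P).v p) +
        (∑ j, b j ^ 2 * (dampEl m (θ j) P).s) / 2 := by
  rw [hV K r m hm P E hP hE _ _ 0 false (fun j => ?_) le_rfl]
  · simp [Fin.sum_univ_castSucc, quadV_zero]
  · cases j using Fin.lastCases with
    | last => simpa using hγ
    | cast i => simpa using hθ i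

lemma closed_demote (hV : CascValueStmt) (hm : Exps m) {P E : El r} (hP : P.IsCov) (hE : E.IsCov)
    {θ : Fin K → ℝ} (hθ : ∀ j, 0 ≤ θ j) :
    cascV m (Sum.elim (fun _ => P) fun _ => E) (stepX (Fin.snoc θ 0) 0 0 true) =
      ∑ j, quadV m (θ j) P := by
  rw [hV K r m hm P E hP hE _ _ 0 true (fun j => ?_) le_rfl]
  · simp [Fin.sum_univ_castSucc, quadV_zero,
      Vale.Agent.P157.Parisi.Full.Extend.siteValue_zero hm.pos]
  · cases j using Fin.lastCases with
    | last => simp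
    | cast i => simpa using hθ i

end Closed

open Vale.Agent.P166.Haar2.Algebra Closed in
/-- The step value is below the difference of the two weights on every cascade. -/
lemma step_closed (hB : BlockFactsStmt) (hF : FieldLipStmt) (hV : CascValueStmt) {K : ℕ}
    (A : Atoms K) (Cp : Compr A) {ε : ℝ} (hε : 0 < ε) :
    ∃ δ₁ > 0, (∀ i : Fin K, δ₁ ≤ A.gapTop i.castSucc) ∧ ∀ (r : ℕ) (m : Fin r → ℝ)
      (q : Fin (r + 1) → ℝ), IsPath m q → ∀ d ∈ Set.Icc (0:ℝ) δ₁, ∀ d' ∈ Set.Icc (0:ℝ) δ₁, ∀ k,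
      Cp.stepValue k m q - ε ≤ A.mean / 2 +
        (cascV m (Sum.elim (fun _ => A.coordEl m q) fun _ => powEl q 0)
            (stepX (Fin.snoc (fun i => A.top - Cp.z i + d) (A.gapTop k)) (Fin.snoc Cp.b 0) 0 false) -
          cascV m (Sum.elim (fun _ => A.coordEl m q) fun _ => powEl q 0)
            (stepX (Fin.snoc (fun i : Fin K => A.gapTop i.castSucc + -d') 0) 0 0 true)) := by
  obtain ⟨C, hC⟩ := hB K A
  set S := max C 1 with hS
  have hS1 : 1 ≤ S := le_max_right _ _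
  set B := ∑ j, Cp.b j ^ 2 with hBdef
  have hB0 : 0 ≤ B := Finset.sum_nonneg fun j _ => sq_nonneg _
  set M := (2 * K : ℝ) * S + B * (2 * S * S) + 1 with hM
  have hM0 : 0 < M := by positivity
  have hgap : ∀ i : Fin K, 0 < A.gapTop i.castSucc := fun i =>
    sub_pos.2 (A.mono (Fin.castSucc_lt_last i))
  obtain ⟨g₀, hg0, hgi⟩ : ∃ g₀ : ℝ, 0 < g₀ ∧ ∀ i : Fin K, g₀ ≤ A.gapTop i.castSucc := by
    rcases isEmpty_or_nonempty (Fin K) with hK | hK
    · exact ⟨1, one_pos, fun i => isEmptyElim i⟩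
    · obtain ⟨i₀, -, hi₀⟩ := Finset.exists_min_image Finset.univ
        (fun i : Fin K => A.gapTop i.castSucc) Finset.univ_nonempty
      exact ⟨_, hgap i₀, fun i => hi₀ i (Finset.mem_univ i)⟩
  refine ⟨min g₀ (ε / M), lt_min hg0 (div_pos hε hM0),
    fun i => (min_le_left _ _).trans (hgi i), fun r m q hq d hd d' hd' k => ?_⟩
  obtain ⟨-, hP, hPs, -⟩ := hC r m q hq
  set P := A.coordEl m q with hPdef
  have hPS : P.s ≤ S := hPs.trans (le_max_left _ _)
  have h := exp_of_path hq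
  have hE : (powEl q 0).IsCov := ⟨fun _ _ _ => by simp [powEl], by simp [powEl], by simp [powEl]⟩
  have hx : Exps m := ⟨hq.pos, hq.lt_one, hq.strictMono⟩
  have hθ : ∀ j, 0 ≤ A.top - Cp.z j := fun j => sub_nonneg.2 (Cp.lt_top j).le
  have hgk : 0 ≤ A.gapTop k := sub_nonneg.2 (A.mono.monotone (Fin.le_last k))
  have hd'g : ∀ i : Fin K, 0 ≤ A.gapTop i.castSucc + -d' := fun i => by
    linarith [hd'.2, min_le_left g₀ (ε / M), hgi i]
  rw [closed_site hV hx hP hE Cp.b (fun j => add_nonneg (hθ j) hd.1) hgk,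
    closed_demote hV hx hP hE hd'g]
  set ρ' : Fin (r + 1) → ℝ :=
    fun p => ∑ j, Cp.b j ^ 2 * (dampEl m (A.top - Cp.z j + d) P).v p with hρ'
  obtain ⟨C', -, hC'⟩ := hF K A Cp
  obtain ⟨hρ, -⟩ := hC' r m q hq
  have hdamp : ∀ {θ : ℝ}, 0 ≤ θ → (dampEl m θ P).IsCov := fun hθ0 => dampEl_cov h hP hθ0
  have hρp : IsFieldPath m ρ' :=
    ⟨hq.pos, hq.lt_one, hq.strictMono,
      fun p p' hp => Finset.sum_le_sum fun j _ =>
        mul_le_mul_of_nonneg_left ((hdamp (add_nonneg (hθ j) hd.1)).mono hp) (sq_nonneg _),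
      Finset.sum_nonneg fun j _ =>
        mul_nonneg (sq_nonneg _) (hdamp (add_nonneg (hθ j) hd.1)).nonneg⟩
  have hρ0 : IsFieldPath m (Cp.fieldEl m q).v :=
    ⟨hq.pos, hq.lt_one, hq.strictMono, hρ.mono, hρ.nonneg⟩
  obtain ⟨hds, hdv⟩ := damp_sum_le h hP hPS Cp.b hd.1 hθ
  have hsite := site_lower (ρ := (Cp.fieldEl m q).v) hρ0 hρp hdv
  have hs := (abs_le.1 hds).1
  have hq1 := (abs_le.1 (quad_sum_le h hP hPS (θ' := fun j => A.top - Cp.z j + d) hd.1 hθ
    fun j => rfl)).1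
  have hq2 := (abs_le.1 (quad_sum_le h hP hPS (θ' := fun i : Fin K => A.gapTop i.castSucc) hd'.1
    hd'g fun i => (neg_add_cancel_right _ _).symm)).1
  have hsmall := small_sum (Nat.cast_nonneg K) (zero_le_one.trans hS1) hB0
    (min_le_right g₀ (ε / M)) hd.2 hd'.2 (hd.1.trans hd.2)
  rw [← hBdef] at hsite hs
  have hes : (Cp.fieldEl m q).s = ∑ j, Cp.b j ^ 2 * (dampEl m (A.top - Cp.z j) P).s := rfl
  simp only [Compr.stepValue, ← hPdef]
  linarith

end Vale.Agent.P166.Haar2
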