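import Vale.Agent.P166.Haar2.Statements
import Vale.Agent.P166.Haar2.Basic
import Vale.Agent.P166.Haar2.Lower.Box

/-!
Adding one monomial and changing the scale of the perturbation.
-/

noncomputable section

open MeasureTheory ProbabilityTheory
open scoped BigOperators

namespace Vale.Agent.P166.Haar2

open Vale.Agent.P157 (gam)
open Vale.Agent.P157.Parisi (Cube scale)
open Vale.Agent.P168.Limit (logZ)

/-- A marginal of a standard Gaussian vector is standard. -/
lemma gam_comp_injective {ι κ : Type} [Fintype ι] [Fintype κ] {e : ι → κ}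
    (he : Function.Injective e) : (gam κ).map (fun J i => J (e i)) = gam ι := by
  classical
  refine (Measure.pi_eq fun s hs => ?_).symm
  have hm : Measurable fun (J : κ → ℝ) (i : ι) => J (e i) :=
    measurable_pi_iff.2 fun i => measurable_pi_apply (e i)
  rw [Measure.map_apply hm (MeasurableSet.univ_pi hs)]
  have h : (fun (J : κ → ℝ) i => J (e i)) ⁻¹' Set.univ.pi s =
      Set.univ.pi (Function.extend e s fun _ => Set.univ) := by
    ext J
    simp only [Set.mem_preimage, Set.mem_univ_pi]
    constructor
    · intro hJ c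
      by_cases hc : ∃ i, e i = c
      · obtain ⟨i, rfl⟩ := hc; rw [he.extend_apply]; exact hJ i
      · rw [Function.extend_apply' _ _ _ hc]; exact Set.mem_univ _
    · intro hJ i
      have := hJ (e i)
      rwa [he.extend_apply] at this
  rw [h]
  show (Measure.pi fun _ : κ => gaussianReal 0 1) _ = _
  rw [Measure.pi_pi, ← Finset.prod_subset (Finset.subset_univ (Finset.univ.image e))
    (fun c _ hc => ?_), Finset.prod_image he.injOn]
  · simp only [he.extend_apply]
  · rw [Function.extend_apply' _ _ _ fun ⟨i, hi⟩ => hc (by simp [← hi])]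
    exact measure_univ

variable {N G L : ℕ}

/-- A coordinate of the perturbation with one monomial more. -/
def liftIdx (c : PIdx G N L) : PIdx G N (L + 1) := ⟨c.1.castSucc, c.2⟩

lemma liftIdx_injective : Function.Injective (liftIdx : PIdx G N L → PIdx G N (L + 1)) := by
  rintro ⟨i, f⟩ ⟨j, g⟩ h
  obtain rfl : i = j := Fin.castSucc_injective _ (congrArg Sigma.fst h)
  exact congrArg _ (eq_of_heq (Sigma.mk.inj h).2)

lemma pert_snoc_zero (P : Sys N G) (s : ℝ) (x : Fin L → ℝ) (U : OG N)
    (J : PIdx G N (L + 1) → ℝ) (σ : Cube N) :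
    P.pert s (Fin.snoc x (0 : ℝ) : Fin (L + 1) → ℝ) U J σ =
      P.pert s x U (fun c => J (liftIdx c)) σ := by
  simp only [Sys.pert, Fintype.sum_sigma, Fin.sum_univ_castSucc, Fin.snoc_castSucc, Fin.snoc_last,
    mul_zero, zero_mul, Finset.sum_const_zero, add_zero]
  rfl

/-- A monomial of strength zero does not count. -/
lemma free_snoc_zero (P : Sys N G) (s : ℝ) (x : Fin L → ℝ) (B : RBase N) :
    P.free s (Fin.snoc x (0 : ℝ) : Fin (L + 1) → ℝ) B = P.free s x B := by
  have hm : Measurable fun J : PIdx G N (L + 1) → ℝ => fun c : PIdx G N L => J (liftIdx c) :=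
    measurable_pi_iff.2 fun c => measurable_pi_apply _
  have h1 : MeasurePreserving (fun J : PIdx G N (L + 1) → ℝ => fun c : PIdx G N L => J (liftIdx c))
      (gam (PIdx G N (L + 1))) (gam (PIdx G N L)) :=
    ⟨hm, gam_comp_injective liftIdx_injective⟩
  have h2 : MeasurePreserving
      (fun z : Dz G (L + 1) B => ((z.1, fun c => z.2.1 (liftIdx c), z.2.2) : Dz G L B))
      (dzLaw G (L + 1) B) (dzLaw G L B) :=
    (MeasurePreserving.id (orthHaar N)).prod (h1.prod (MeasurePreserving.id B.law))
  have e : ∀ z : Dz G (L + 1) B,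
      P.ham s (Fin.snoc x (0 : ℝ) : Fin (L + 1) → ℝ) B z =
        P.ham s x B (z.1, fun c => z.2.1 (liftIdx c), z.2.2) := fun z => funext fun σ => by
    simp only [Sys.ham, Sys.ham0, pert_snoc_zero]
  rw [Sys.free, Sys.free, ← h2.map_eq,
    integral_map h2.measurable.aemeasurable (measurable_logZ P s x B).aestronglyMeasurable]
  exact integral_congr_ae (Filter.Eventually.of_forall fun z => congrArg logZ (e z))

/-- Only the product of the scale and the strengths counts. -/
lemma free_rescale (P : Sys N G) (s s' : ℝ) (x x' : Fin L → ℝ) (B : RBase N)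
    (h : ∀ i, s * x i = s' * x' i) : P.free s x B = P.free s' x' B := by
  have e : ∀ z : Dz G L B, P.ham s x B z = P.ham s' x' B z := fun z => funext fun σ => by
    simp only [Sys.ham, Sys.ham0, Sys.pert, h]
  simp only [Sys.free, e]

lemma scale_mono {m n : ℕ} (h : m ≤ n) : scale m ≤ scale n :=
  Real.rpow_le_rpow (Nat.cast_nonneg m) (by exact_mod_cast h) (by norm_num)

/-- One monomial more at a larger scale does not lower the free energy. -/
lemma free_grow (hP : PertShapeStmt) (P : Sys N G) (hN : 0 < N) (hν : (N : ℝ) ≤ P.ν) {s s' : ℝ}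
    (hs : 0 ≤ s) (hss : s ≤ s') (hs' : 0 < s') (x : Fin L → ℝ) (v : ℝ) (B : RBase N) :
    P.free s x B ≤ P.free s' (Fin.snoc x v : Fin (L + 1) → ℝ) B := by
  set x' : Fin L → ℝ := fun i => s / s' * x i with hx'
  have h1 : P.free s x B = P.free s' x' B :=
    free_rescale P s s' x x' B fun i => by rw [hx']; field_simp
  rw [h1, ← free_snoc_zero P s' x' B]
  refine ((hP G N (L + 1) P hN hν s' B).2 _ _ fun i => ?_).1
  induction i using Fin.lastCases with
  | last => simp
  | cast i =>
    simp only [Fin.snoc_castSucc, hx', abs_mul]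
    refine mul_le_of_le_one_left (abs_nonneg _) ?_
    rw [abs_of_nonneg (div_nonneg hs hs'.le)]
    exact (div_le_one hs').2 hss

end Vale.Agent.P166.Haar2
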