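import Vale.Agent.P166.Haar2.Lower.Step
import Vale.Agent.P166.Haar2.Lower.Count
import Vale.Agent.P166.Haar2.Lower.Compare

/-!
The lower bound: the best free energy, averaged over independent labels, grows at every step at
least by the infimum of the functional.
-/

noncomputable section

open MeasureTheory Filter
open scoped BigOperators Topology

namespace Vale.Agent.P166.Haar2

open Vale.Agent.P157.Parisi (scale)
open Vale.Agent.P157.Parisi.Full (ConcaveStmt SiteSlopeStmt)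

variable {K : ℕ}

/-- The best free energy averaged over independent labels. -/
def avgBest (A : Atoms K) (n : ℕ) : ℝ :=
  ∑ w : Fin n → Fin (K + 1), wt A.c w * best A.a w

lemma avgBest_succ_sub (A : Atoms K) (n : ℕ) :
    avgBest A (n + 1) - avgBest A n = ∑ w : Fin n → Fin (K + 1),
      wt A.c w * ∑ k, A.c k * (best A.a (Fin.snoc w k) - best A.a w) := by
  rw [avgBest, avgBest, sum_wt_succ, ← Finset.sum_sub_distrib]
  refine Finset.sum_congr rfl fun w _ => ?_
  simp only [mul_sub, Finset.sum_sub_distrib, ← Finset.sum_mul, A.sum_one, one_mul]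

lemma avgBest_step (hBase : BaseStmt) (hSt : StepStmt) (hDe : DemoteStmt) (hFr : FreshStmt)
    (hV : CascValueStmt) (hVal : ValueStmt) (hCompr : ComprStmt) (hStat : StationaryStmt)
    (hFA : FunAStmt) (hFL : FieldLipStmt) (hBF : BlockFactsStmt) (hP : PertShapeStmt)
    (hC : ConcaveStmt) (hS : SiteSlopeStmt) (A : Atoms K) {ε : ℝ} (hε : 0 < ε) :
    ∃ N₀ : ℕ, 0 < N₀ ∧ ∀ n ≥ N₀, ∃ v ∈ A.upperValuesA,
      v - ε ≤ avgBest A (n + 1) - avgBest A n := by
  obtain ⟨η₀, hη₀, N₁, hstep⟩ := step_good hBase hSt hDe hFr hV hVal hCompr hStat hFA hFL hBF hP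
    hC hS A (show 0 < ε / 2 by linarith)
  set η := min η₀ 1 with hη
  have hη0 : 0 < η := lt_min hη₀ one_pos
  have hc0 : ∀ k, 0 ≤ A.c k := fun k => (A.pos k).le
  set C₀ := absSum A.a + 6
  have hC₀ : 0 ≤ C₀ :=
    add_nonneg (Finset.sum_nonneg fun k _ => abs_nonneg (A.a k)) (by norm_num)
  have hb := tendsto_mul_badWt hc0 A.sum_one hη0 (min_le_right _ _)
  have hev : ∀ᶠ n : ℕ in atTop, N₁ ≤ n ∧ 0 < n ∧ badWt A.c η n < 1 ∧
      4 * C₀ * (((n : ℝ) + 2) * badWt A.c η n) ≤ ε / 2 := by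
    refine (eventually_ge_atTop N₁).and ((eventually_gt_atTop 0).and (Eventually.and ?_ ?_))
    · refine (hb.eventually (gt_mem_nhds one_pos)).mono fun n hn => lt_of_le_of_lt ?_ hn
      exact le_mul_of_one_le_left (badWt_nonneg hc0 η n)
        (by linarith [(Nat.cast_nonneg n : (0 : ℝ) ≤ n)])
    · exact (hb.const_mul (4 * C₀)).eventually
        (ge_mem_nhds (show 4 * C₀ * 0 < ε / 2 by rw [mul_zero]; linarith))
  obtain ⟨N₀, hN₀⟩ := eventually_atTop.1 hev
  refine ⟨N₀ + 1, Nat.succ_pos _, fun n hn => ?_⟩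
  obtain ⟨hn1, hn0, hp1, hpB⟩ := hN₀ n ((Nat.le_succ N₀).trans hn)
  set p := badWt A.c η n
  have hp0 : 0 ≤ p := badWt_nonneg hc0 η n
  have hgb := good_add_bad A.sum_one η n (K := K)
  have hne : (goodSet A.c η n).Nonempty := by
    by_contra h
    rw [Finset.not_nonempty_iff_eq_empty] at h
    rw [h, Finset.sum_empty, zero_add] at hgb
    linarith
  have hgood : ∀ w ∈ goodSet A.c η n, ∃ v ∈ A.upperValuesA,
      v - ε / 2 ≤ ∑ k, A.c k * (best A.a (Fin.snoc w k) - best A.a w) := fun w hw =>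
    hstep n hn1 w fun k => (mem_goodSet.1 hw k).trans (min_le_left _ _)
  choose! V hVm hVle using hgood
  obtain ⟨w₀, hw₀, hmin⟩ := Finset.exists_min_image (goodSet A.c η n) V hne
  refine ⟨V w₀, hVm w₀ hw₀, ?_⟩
  set u := V w₀ - ε / 2
  set B := 2 * C₀ * ((n : ℝ) + 2)
  have hD : ∀ w : Fin n → Fin (K + 1),
      |∑ k, A.c k * (best A.a (Fin.snoc w k) - best A.a w)| ≤ B := by
    intro w
    refine (Finset.abs_sum_le_sum_abs _ _).trans
      ((Finset.sum_le_sum (g := fun k => A.c k * B) fun k _ => ?_).trans_eq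
        (by rw [← Finset.sum_mul, A.sum_one, one_mul]))
    rw [abs_mul, abs_of_nonneg (hc0 k)]
    refine mul_le_mul_of_nonneg_left ((abs_sub _ _).trans ?_) (hc0 k)
    have h1 := abs_best_le hP A.a (Nat.succ_pos n) (Fin.snoc w k)
    have h2 := abs_best_le hP A.a hn0 w
    push_cast at h1
    linarith
  have hu : u ≤ B := (hVle w₀ hw₀).trans (le_of_abs_le (hD w₀))
  rw [avgBest_succ_sub, ← Finset.sum_add_sum_compl (goodSet A.c η n)]
  have h1 : ∑ w ∈ goodSet A.c η n, wt A.c w * u ≤ ∑ w ∈ goodSet A.c η n,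
      wt A.c w * ∑ k, A.c k * (best A.a (Fin.snoc w k) - best A.a w) :=
    Finset.sum_le_sum fun w hw => mul_le_mul_of_nonneg_left
      (le_trans (sub_le_sub_right (hmin w hw) _) (hVle w hw)) (wt_nonneg hc0 w)
  have h2 : ∑ w ∈ (goodSet A.c η n)ᶜ, wt A.c w * -B ≤ ∑ w ∈ (goodSet A.c η n)ᶜ,
      wt A.c w * ∑ k, A.c k * (best A.a (Fin.snoc w k) - best A.a w) :=
    Finset.sum_le_sum fun w _ =>
      mul_le_mul_of_nonneg_left (abs_le.1 (hD w)).1 (wt_nonneg hc0 w)
  rw [← Finset.sum_mul] at h1 h2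
  have e1 : (∑ w ∈ goodSet A.c η n, wt A.c w) = 1 - p := by linarith
  have e2 : (∑ w ∈ (goodSet A.c η n)ᶜ, wt A.c w) = p := rfl
  rw [e1] at h1
  rw [e2] at h2
  have e3 : 2 * (p * B) = 4 * C₀ * (((n : ℝ) + 2) * p) := by simp only [B]; ring
  have hu0 : u = V w₀ - ε / 2 := rfl
  linarith [mul_le_mul_of_nonneg_left hu hp0]

/-- The lower bound. -/
theorem lower (hBase : BaseStmt) (hSt : StepStmt) (hDe : DemoteStmt) (hFr : FreshStmt)
    (hV : CascValueStmt) (hVal : ValueStmt) (hCompr : ComprStmt) (hStat : StationaryStmt)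
    (hFA : FunAStmt) (hFL : FieldLipStmt) (hBF : BlockFactsStmt) (hP : PertShapeStmt)
    (hC : ConcaveStmt) (hS : SiteSlopeStmt) : LowerStmt := by
  intro K A N w hN hfr ε hε
  obtain ⟨N₀, hN₀, hstep⟩ := avgBest_step hBase hSt hDe hFr hV hVal hCompr hStat hFA hFL hBF hP
    hC hS A (show 0 < ε / 4 by linarith)
  obtain ⟨η₀, hη₀, hcmp⟩ := meanP_frac_close A (show 0 < ε / 8 by linarith)
  set η := min η₀ 1
  have hη0 : 0 < η := lt_min hη₀ one_pos
  have hc0 : ∀ k, 0 ≤ A.c k := fun k => (A.pos k).le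
  have hind : ∀ n, N₀ < n → ∃ v ∈ A.upperValuesA,
      ((n : ℝ) - N₀) * (v - ε / 4) ≤ avgBest A n - avgBest A N₀ := by
    intro n hn
    induction n, hn using Nat.le_induction with
    | base =>
      obtain ⟨v, hv, h⟩ := hstep N₀ le_rfl
      exact ⟨v, hv, by push_cast; simpa using h⟩
    | succ n hn ih =>
      obtain ⟨v, hv, h⟩ := ih
      obtain ⟨v', hv', h'⟩ := hstep n (by omega)
      have hnn : (N₀ : ℝ) ≤ n := by exact_mod_cast (by omega : N₀ ≤ n)
      rcases le_total v v' with hvv | hvv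
      · exact ⟨v, hv, by push_cast; linarith⟩
      · have := mul_le_mul_of_nonneg_left (sub_le_sub_right hvv (ε / 4)) (sub_nonneg.2 hnn)
        exact ⟨v', hv', by push_cast; linarith⟩
  -- the error after division by the size
  set S := absSum A.a
  set err : ℕ → ℝ := fun n => 3 / 2 * eta n + 9 / 2 * (n : ℝ) ^ (-(1 / 4) : ℝ) +
    S * badWt A.c η n + ((N₀ : ℝ) * (S + ε) + |avgBest A N₀|) / n with herr
  have herr0 : Tendsto err atTop (𝓝 0) := by
    have h1 : Tendsto (fun n : ℕ => (n : ℝ) ^ (-(1 / 4) : ℝ)) atTop (𝓝 0) :=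
      (tendsto_rpow_neg_atTop (by norm_num)).comp tendsto_natCast_atTop_atTop
    have h2 : Tendsto (fun n : ℕ => badWt A.c η n) atTop (𝓝 0) :=
      squeeze_zero (badWt_nonneg hc0 η) (fun n => le_mul_of_one_le_left (badWt_nonneg hc0 η n)
        (by linarith [(Nat.cast_nonneg n : (0 : ℝ) ≤ n)]))
        (tendsto_mul_badWt hc0 A.sum_one hη0 (min_le_right _ _))
    have h3 : Tendsto (fun n : ℕ => ((N₀ : ℝ) * (S + ε) + |avgBest A N₀|) / (n : ℝ)) atTop (𝓝 0) :=
      tendsto_const_nhds.div_atTop tendsto_natCast_atTop_atTop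
    rw [herr]
    simpa using (((tendsto_eta.const_mul (3 / 2)).add (h1.const_mul (9 / 2))).add
      (h2.const_mul S)).add h3
  filter_upwards [hN.eventually_gt_atTop N₀,
    hN.eventually (herr0.eventually (gt_mem_nhds (show (0 : ℝ) < ε / 2 by linarith))),
    eventually_all.2 fun k => (hfr k).eventually (Metric.closedBall_mem_nhds (A.c k) hη0)]
    with j hj hje hjg
  set n := N j with hn
  have hn0 : 0 < n := lt_trans hN₀ hj
  have hnR : (0 : ℝ) < n := by exact_mod_cast hn0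
  obtain ⟨v, hv, hvle⟩ := hind n hj
  refine ⟨v, hv, ?_⟩
  set Lj := meanP 1 fun i => A.a (w j i) with hLj
  have hLb : |Lj| ≤ S / 2 := abs_labP_le A.a hn0 (w j)
  set p := badWt A.c η n
  have hp0 : 0 ≤ p := badWt_nonneg hc0 η n
  set R := 3 / 2 * (eta n * n) + 9 / 2 * scale n ^ 2 with hR
  have hg : avgBest A n ≤ n * (Lj + ε / 8) + R + n * (S * p) := by
    rw [avgBest, ← Finset.sum_add_sum_compl (goodSet A.c η n)]
    have h1 : ∑ u ∈ goodSet A.c η n, wt A.c u * best A.a u ≤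
        ∑ u ∈ goodSet A.c η n, wt A.c u * (n * (Lj + ε / 8) + R) := by
      refine Finset.sum_le_sum fun u hu => mul_le_mul_of_nonneg_left ?_ (wt_nonneg hc0 u)
      have h := hcmp n hn0 u (w j) (fun k => (mem_goodSet.1 hu k).trans (min_le_left _ _))
        (fun k => (show |frac (w j) k - A.c k| ≤ η by
          simpa [Metric.mem_closedBall, Real.dist_eq] using hjg k).trans (min_le_left _ _))
      have h' := best_le hP A.a hn0 u
      simp only [labP] at h'
      linarith [mul_le_mul_of_nonneg_left (abs_le.1 h).2 hnR.le]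
    have h2 : ∑ u ∈ (goodSet A.c η n)ᶜ, wt A.c u * best A.a u ≤
        ∑ u ∈ (goodSet A.c η n)ᶜ, wt A.c u * (n * (Lj + ε / 8) + R + n * S) := by
      refine Finset.sum_le_sum fun u _ => mul_le_mul_of_nonneg_left ?_ (wt_nonneg hc0 u)
      have h := abs_le.1 (abs_labP_le A.a hn0 u)
      have h' := best_le hP A.a hn0 u
      linarith [mul_le_mul_of_nonneg_left h.2 hnR.le,
        mul_le_mul_of_nonneg_left (abs_le.1 hLb).1 hnR.le, mul_pos hnR hε]
    rw [← Finset.sum_mul] at h1 h2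
    have e := good_add_bad A.sum_one η n (K := K)
    have e2 : (∑ u ∈ (goodSet A.c η n)ᶜ, wt A.c u) = p := rfl
    have e1 : (∑ u ∈ goodSet A.c η n, wt A.c u) = 1 - p := by linarith
    rw [e1] at h1
    rw [e2] at h2
    linarith
  have he : (n : ℝ) * err n = R + n * (S * p) + ((N₀ : ℝ) * (S + ε) + |avgBest A N₀|) := by
    have e4 : (n : ℝ) * (n : ℝ) ^ (-(1 / 4) : ℝ) = scale n ^ 2 := by
      rw [scale_sq, mul_comm, ← Real.rpow_add_one hnR.ne']; norm_num
    simp only [err, hR, mul_add, mul_div_cancel₀ _ hnR.ne', ← e4]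
    ring
  have hje' := mul_le_mul_of_nonneg_left hje.le hnR.le
  rw [he] at hje'
  have h0 : (N₀ : ℝ) * Lj ≤ N₀ * S :=
    mul_le_mul_of_nonneg_left (by linarith [(abs_le.1 hLb).1, (abs_le.1 hLb).2]) (Nat.cast_nonneg _)
  by_contra hv2
  push Not at hv2
  have hnn : (N₀ : ℝ) ≤ n := by exact_mod_cast hj.le
  have h3 : ((n : ℝ) - N₀) * (Lj + 3 / 4 * ε) ≤ ((n : ℝ) - N₀) * (v - ε / 4) :=
    mul_le_mul_of_nonneg_left (by linarith) (sub_nonneg.2 hnn)
  have hN₀ε : 0 ≤ (N₀ : ℝ) * ε := mul_nonneg (Nat.cast_nonneg _) hε.le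
  linarith [le_abs_self (avgBest A N₀), neg_abs_le (avgBest A N₀), mul_pos hnR hε]

end Vale.Agent.P166.Haar2
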