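import Vale.Agent.P166.Haar2.Lower.Growth
import Vale.Agent.P166.Haar2.Lower.Closed
import Vale.Agent.P166.Haar2.Lower.Promote
import Vale.Agent.P157.Full.Statements

/-!
One site more at a typical labelling raises the best free energy by a value of the functional.
-/

noncomputable section

open MeasureTheory Filter
open scoped BigOperators Topology

namespace Vale.Agent.P166.Haar2

open Vale.Agent.P157.Parisi (Cube scale Path IsPath weight siteValue)
open Vale.Agent.P157.Parisi.Full (IsFieldPath siteSlope ConcaveStmt SiteSlopeStmt)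
open Vale.Agent.P168.Limit (gav gav_const)

variable {K : ℕ}

/-- The conjugate of a field path gives a value of the functional. -/
lemma mem_upperValuesA_siteSlope (hC : ConcaveStmt) (hS : SiteSlopeStmt) (A : Atoms K) {r : ℕ}
    {m : Fin r → ℝ} {ρ : Fin (r + 1) → ℝ} (hρ : IsFieldPath m ρ) :
    A.funA m (siteSlope m ρ) + pairTerm m (siteSlope m ρ) ρ ∈ A.upperValuesA := by
  obtain ⟨hmono, hs⟩ := hS r m ρ hρ
  refine ⟨r, m, siteSlope m ρ,
    ⟨hρ.pos, hρ.lt_one, hρ.strictMono, hmono, (hs 0).1, (hs _).2⟩, fun ρ' hρ' => ?_⟩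
  have h := hC r m ρ ρ' hρ hρ'
  have e : ∑ p, weight m p * siteSlope m ρ p * (ρ' p - ρ p) =
      ∑ p, weight m p * ρ' p * siteSlope m ρ p - ∑ p, weight m p * ρ p * siteSlope m ρ p := by
    rw [← Finset.sum_sub_distrib]
    exact Finset.sum_congr rfl fun p _ => by ring
  simp only [pairTerm]
  linarith

/-- Without a test field nothing is added. -/
lemma testFree_zero {N : ℕ} (a : Fin (K + 1) → ℝ) (w : Fin (N + 1) → Fin (K + 1))
    (x : Fin N → ℝ) :
    testFree a w x 0 0 false = (stdSys a w).free (scale N) x (unifBase (N + 1)) := by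
  simp [testFree, Sys.lavg, gav_const]

lemma pos_frac_nonempty {n : ℕ} {w : Fin n → Fin (K + 1)} {k : Fin (K + 1)} (h : 0 < frac w k) :
    (Finset.univ.filter fun i => w i = k).Nonempty := by
  by_contra h'
  rw [Finset.not_nonempty_iff_eq_empty] at h'
  simp [frac, h'] at h

/-- One site more at a typical labelling. -/
theorem step_good (hBase : BaseStmt) (hSt : StepStmt) (hDe : DemoteStmt) (hFr : FreshStmt)
    (hV : CascValueStmt) (hVal : ValueStmt) (hCompr : ComprStmt) (hStat : StationaryStmt)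
    (hFA : FunAStmt) (hFL : FieldLipStmt) (hBF : BlockFactsStmt) (hP : PertShapeStmt)
    (hC : ConcaveStmt) (hS : SiteSlopeStmt) (A : Atoms K) {ε : ℝ} (hε : 0 < ε) :
    ∃ η > 0, ∃ N₀ : ℕ, ∀ n ≥ N₀, ∀ w : Fin n → Fin (K + 1), (∀ k, |frac w k - A.c k| ≤ η) →
      ∃ v ∈ A.upperValuesA, v - ε ≤ ∑ k, A.c k * (best A.a (Fin.snoc w k) - best A.a w) := by
  by_contra hcon
  push Not at hcon
  obtain ⟨kmin, -, hkmin⟩ := Finset.exists_min_image Finset.univ A.c Finset.univ_nonempty
  set η : ℕ → ℝ := fun j => min (1 / ((j : ℝ) + 1)) (A.c kmin / 2)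
  have hη : ∀ j, 0 < η j := fun j => lt_min (by positivity) (half_pos (A.pos kmin))
  choose n hn w hw hbad using fun j => hcon (η j) (hη j) (j + 1)
  have hn0 : ∀ j, 0 < n j := fun j => lt_of_lt_of_le j.succ_pos (hn j)
  have hnt : Tendsto n atTop atTop :=
    tendsto_atTop_mono (fun j => (Nat.le_succ j).trans (hn j)) tendsto_id
  have hfrac : ∀ k, Tendsto (fun j => frac (w j) k) atTop (𝓝 (A.c k)) := fun k => by
    have h : Tendsto (fun j => frac (w j) k - A.c k) atTop (𝓝 0) :=
      squeeze_zero_norm (fun j => (Real.norm_eq_abs _).le.trans ((hw j k).trans (min_le_left _ _)))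
        tendsto_one_div_add_atTop_nhds_zero_nat
    simpa using h.add_const (A.c k)
  have hfpos : ∀ j k, 0 < frac (w j) k := fun j k => by
    have h1 := (abs_le.1 ((hw j k).trans (min_le_right _ _))).1
    linarith [hkmin k (Finset.mem_univ k), A.pos kmin]
  choose x y hx hy hnear using fun j => exists_near_max A.a (hn0 j) (w j)
  obtain ⟨φ, ξ, hφ, hap⟩ := hBase K A n w x y hnt hfrac (fun j => ⟨hx j, hy j⟩)
    fun j x' y' hx' hy' => (le_best hP A.a (hn0 j) (w j) hx' hy').trans (hnear j)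
  let Q : SysSeq K :=
    { N := fun j => n (φ j)
      a := fun j => shifted A.a (n (φ j)) (y (φ j))
      w := fun j => w (φ j)
      B := fun j => unifBase (n (φ j))
      x := fun j => x (φ j) }
  let Qp : SysSeq K := SysSeq.mk Q.N Q.a (fun j => promote (Q.w j)) Q.B Q.x
  have hMt : Tendsto Q.N atTop atTop := hnt.comp hφ.tendsto_atTop
  have hQ : Q.Std A := by
    refine ⟨hMt, fun j => hn0 _, fun k => ?_, fun k => (hfrac k).comp hφ.tendsto_atTop,
      fun j i => abs_le.2 ⟨by linarith [((hx (φ j)) i).1], ((hx (φ j)) i).2⟩⟩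
    have h1 : Tendsto (fun j => eta (n (φ j)) * y (φ j) k) atTop (𝓝 0) := by
      refine squeeze_zero_norm (fun j => ?_)
        (by simpa using (tendsto_eta.comp hMt).mul_const 3 : Tendsto
          (fun j => eta (n (φ j)) * 3) atTop (𝓝 0))
      rw [Real.norm_eq_abs, abs_mul, abs_of_nonneg (eta_nonneg _), abs_of_nonneg (hy _ k).1]
      exact mul_le_mul_of_nonneg_left (hy _ k).2 (eta_nonneg _)
    simpa [Q, shifted] using h1.const_add (A.a k)
  have hQp : Qp.Std A :=
    ⟨hMt, hQ.pos, hQ.atoms, tendsto_frac_promote (fun j => w (φ j)) hMt hQ.fracs, hQ.box⟩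
  have hap' : Qp.Approx A ξ := hap
  let coords : (j : ℕ) → Fin (K + 1) → Fin (Q.N j) := fun j k =>
    (Finset.univ.filter fun i => w (φ j) i = k).min' (pos_frac_nonempty (hfpos (φ j) k))
  have hcw : ∀ j k, w (φ j) (coords j k) = k := fun j k =>
    (Finset.mem_filter.1 (Finset.min'_mem _ (pos_frac_nonempty (hfpos (φ j) k)))).2
  have hgood : ∀ j, GoodCoords (Q.w j) (coords j) := fun j => by
    refine ⟨fun a b h => by rw [← hcw j a, ← hcw j b, h], fun k => ?_⟩
    refine if_pos fun i hi he => ?_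
    rw [show Q.w j (coords j k) = k from hcw j k] at he
    exact absurd (Finset.min'_le _ i (Finset.mem_filter.2 ⟨Finset.mem_univ i, he⟩)) (not_le.2 hi)
  obtain ⟨Cp, hCp⟩ := hCompr K A
  obtain ⟨δ₁, hδ₁, hgap, hclosed⟩ := step_closed hBF hFL hV A Cp (show 0 < ε / 8 by linarith)
  set δ₀ := min δ₁ (ε / 16) with hδ₀
  have hδ₀0 : 0 < δ₀ := lt_min hδ₁ (by linarith)
  obtain ⟨dd, hdd, hdem⟩ := hDe K A Q hQ (fun _ => rfl) coords hgood δ₀ hδ₀0
  -- the demotion of the base
  set θd : Fin (K + 1) → ℝ := Fin.snoc (fun i : Fin K => A.gapTop i.castSucc + -dd) 0 with hθd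
  have hθd0 : ∀ i, 0 ≤ θd i := fun i => by
    induction i using Fin.lastCases with
    | last => simp [θd]
    | cast i => simp only [θd, Fin.snoc_castSucc]; linarith [hgap i, hdd.2, min_le_left δ₁ (ε / 16)]
  obtain ⟨hXd, Cd, hCd⟩ := stepX_bound θd 0 hθd0 (fun _ _ => rfl) true
  have hfd := hFr K A Qp ξ 0 coords (stepX θd 0 0 true) Cd hQp hap'
    (fun j => (hgood j).1) (fun j i => (hgood j).2 i) hXd hCd
  -- every type of the new site
  have hk : ∀ k, ∀ᶠ j in atTop, Cp.stepValue k (ξ j).m (ξ j).q - ε / 2 ≤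
      best A.a (Fin.snoc (w (φ j)) k) - best A.a (w (φ j)) := by
    intro k
    obtain ⟨ds, hds, hstep⟩ := hSt K A Cp Q hQ (fun _ => rfl) coords hgood k 0 0 false
      ⟨le_rfl, zero_le_one⟩ δ₀ hδ₀0
    set θs : Fin (K + 1) → ℝ := Fin.snoc (fun i => A.top - Cp.z i + ds) (A.gapTop k) with hθs
    have hθs0 : ∀ i, 0 ≤ θs i := fun i => by
      induction i using Fin.lastCases with
      | last =>
        simp only [θs, Fin.snoc_last, Atoms.gapTop, sub_nonneg, Atoms.top]
        exact A.mono.monotone (Fin.le_last k)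
      | cast i => simp only [θs, Fin.snoc_castSucc]; linarith [Cp.lt_top i, hds.1]
    have hbs : ∀ i, θs i = 0 → (Fin.snoc Cp.b 0 : Fin (K + 1) → ℝ) i = 0 := fun i h => by
      induction i using Fin.lastCases with
      | last => simp
      | cast i =>
        simp only [θs, Fin.snoc_castSucc] at h
        linarith [Cp.lt_top i, hds.1]
    obtain ⟨hXs, Cs, hCs⟩ := stepX_bound θs (Fin.snoc Cp.b 0) hθs0 hbs false
    have hfs := hFr K A Qp ξ 0 coords (stepX θs (Fin.snoc Cp.b 0) 0 false) Cs hQp hap'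
      (fun j => (hgood j).1) (fun j i => (hgood j).2 i) hXs hCs
    filter_upwards [hstep, hdem, (Metric.tendsto_nhds.1 hfs) (ε / 32) (by linarith),
      (Metric.tendsto_nhds.1 hfd) (ε / 32) (by linarith),
      ((tendsto_growErr K).comp hMt).eventually (gt_mem_nhds (show (0 : ℝ) < ε / 16 by linarith))]
      with j h1 h2 h3 h4 h5
    rw [Real.dist_eq, sub_zero, abs_lt] at h3 h4
    have hg := best_grow hP A.a (hn0 (φ j)) (w (φ j)) k (hx (φ j)) (hy (φ j)) (hnear (φ j))
    have hcl := hclosed (ξ j).r (ξ j).m (ξ j).q (ξ j).isPath ds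
      ⟨hds.1.le, hds.2.trans (min_le_left _ _)⟩ dd ⟨hdd.1.le, hdd.2.trans (min_le_left _ _)⟩ k
    have hδε : δ₀ ≤ ε / 16 := min_le_right _ _
    simp only [testFree_zero] at h1
    have h1' := h1.1
    have h2' := h2.2
    simp only [Q, Qp, θs, θd, SysSeq.sys, Function.comp_def] at h1' h2' h3 h4 h5 hg hcl ⊢
    linarith
  obtain ⟨CF, -, hCF⟩ := hFL K A Cp
  obtain ⟨CA, hCA, -⟩ := hFA K A
  have hstat := hStat K A Cp Q ξ hQ (fun _ => rfl) hap'
  have hlim := ((hstat.const_mul (|CA| + |CF| / 2)).eventually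
    (ge_mem_nhds (show (|CA| + |CF| / 2) * 0 < ε / 2 by rw [mul_zero]; linarith)))
  obtain ⟨j, hj, hjs⟩ := ((eventually_all.2 hk).and hlim).exists
  set m := (ξ j).m
  set q := (ξ j).q
  have hq : IsPath m q := (ξ j).isPath
  obtain ⟨hcov, -, hlastb, -⟩ := hCF (ξ j).r m q hq
  set ρ := (Cp.fieldEl m q).v
  have hρ : IsFieldPath m ρ := ⟨hq.pos, hq.lt_one, hq.strictMono, hcov.mono, hcov.nonneg⟩
  obtain ⟨hmono, hsb⟩ := hS _ m ρ hρ
  set q' := siteSlope m ρ
  have hq' : IsPath m q' := ⟨hq.pos, hq.lt_one, hq.strictMono, hmono, (hsb 0).1, (hsb _).2⟩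
  have hval := hVal K A Cp (ξ j).r m q hq hCp
  have hsum : ∑ k, A.c k * (Cp.stepValue k m q - ε / 2) ≤
      ∑ k, A.c k * (best A.a (Fin.snoc (w (φ j)) k) - best A.a (w (φ j))) :=
    Finset.sum_le_sum fun k _ => mul_le_mul_of_nonneg_left (hj k) (A.pos k).le
  simp only [mul_sub, Finset.sum_sub_distrib, ← Finset.sum_mul, A.sum_one, one_mul] at hsum
  have hwn : ∀ p, 0 ≤ weight m p := fun p =>
    Vale.Agent.P157.Parisi.Up.weight_nonneg ⟨hq.pos, hq.lt_one, hq.strictMono⟩ p
  set D := ∑ p, weight m p * |q' p - q p|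
  have hD0 : 0 ≤ D := Finset.sum_nonneg fun p _ => mul_nonneg (hwn p) (abs_nonneg _)
  have hfun : A.funA m q' ≤ A.funA m q + |CA| * D := by
    have h := (hCA _ m q' q hq' hq).2
    linarith [(abs_le.1 h).2, mul_le_mul_of_nonneg_right (le_abs_self CA) hD0]
  have hpair : pairTerm m q' ρ ≤ pairTerm m q ρ + |CF| / 2 * D := by
    have h : ∑ p, weight m p * ρ p * q' p ≤
        (∑ p, weight m p * ρ p * q p) + |CF| * D := by
      rw [Finset.mul_sum, ← Finset.sum_add_distrib]
      refine Finset.sum_le_sum fun p _ => ?_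
      have h0 : 0 ≤ ρ p := hρ.nonneg.trans (hρ.mono (Fin.zero_le p))
      have h1 : ρ p ≤ |CF| := ((hρ.mono (Fin.le_last p)).trans hlastb).trans (le_abs_self CF)
      have h2 := mul_le_mul_of_nonneg_left
        (mul_le_mul h1 (le_refl |q' p - q p|) (abs_nonneg _) (abs_nonneg CF)) (hwn p)
      have h3 := mul_le_mul_of_nonneg_left
        (mul_le_mul_of_nonneg_left (le_abs_self (q' p - q p)) h0) (hwn p)
      linarith
    simp only [pairTerm]
    linarith
  have hv := mem_upperValuesA_siteSlope hC hS A hρ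
  have hcon' := hbad (φ j) _ hv
  simp only [mul_sub, Finset.sum_sub_distrib, ← Finset.sum_mul, A.sum_one, one_mul] at hcon'
  linarith

end Vale.Agent.P166.Haar2
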